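import Crest.Agent.R71.Defs

/-! Row 71: BODY. -/

set_option autoImplicit false

open Finset Pointwise

namespace Crest.Agent.R71

theorem BODY_holds : BODY := by
  intro R _ _ n A a ha
  set V : Set (EuclideanSpace ℝ (Fin n)) := {v : EuclideanSpace ℝ (Fin n) |
      ∃ x : R, (∀ i, v i = 3 * A x i) ∨ (∀ i, v i = -(3 * A x i))} with hV
  have hr : 0 < 1 / (4 * a) := by positivity
  have hbody : body A a =
      convexHull ℝ V + Metric.closedBall (0 : EuclideanSpace ℝ (Fin n)) (1 / (4 * a)) := by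
    ext z
    simp only [body, Set.mem_setOf_eq, Set.mem_add, mem_closedBall_zero_iff]
    constructor
    · rintro ⟨u, hu, w, hw, rfl⟩
      exact ⟨u, hu, w, hw, rfl⟩
    · rintro ⟨u, hu, w, hw, rfl⟩
      exact ⟨u, hu, w, hw, rfl⟩
  have hfin : V.Finite := by
    have h1 : V ⊆ Set.range (fun x : R => (WithLp.toLp 2 fun i => 3 * A x i :
        EuclideanSpace ℝ (Fin n))) ∪ Set.range (fun x : R =>
        (WithLp.toLp 2 fun i => -(3 * A x i) : EuclideanSpace ℝ (Fin n))) := by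
      rintro v ⟨x, h | h⟩
      · exact Or.inl ⟨x, by ext i; simp [h i]⟩
      · exact Or.inr ⟨x, by ext i; simp [h i]⟩
    exact ((Set.finite_range _).union (Set.finite_range _)).subset h1
  have hneg : ∀ v ∈ V, -v ∈ V := by
    rintro v ⟨x, h | h⟩
    · exact ⟨x, Or.inr fun i => by simp [h i]⟩
    · exact ⟨x, Or.inl fun i => by simp [h i]⟩
  have hnegH : ∀ u ∈ convexHull ℝ V, -u ∈ convexHull ℝ V := by
    intro u hu
    have h1 : -V ⊆ V := fun v hv => by
      have := hneg (-v) (Set.mem_neg.1 hv)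
      rwa [neg_neg] at this
    have h2 : -u ∈ -(convexHull ℝ V) := Set.neg_mem_neg.2 hu
    rw [← convexHull_neg] at h2
    exact convexHull_mono h1 h2
  obtain ⟨x₀⟩ := ‹Nonempty R›
  have hv₀ : (WithLp.toLp 2 fun i => 3 * A x₀ i : EuclideanSpace ℝ (Fin n)) ∈ convexHull ℝ V :=
    subset_convexHull ℝ V ⟨x₀, Or.inl fun i => by simp⟩
  refine ⟨?_, ?_, ?_, ?_⟩
  · rw [hbody]
    exact (convex_convexHull ℝ V).add (convex_closedBall _ _)
  · rw [hbody]
    exact (hfin.isCompact_convexHull (𝕜 := ℝ)).add (isCompact_closedBall _ _)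
  · refine ⟨(WithLp.toLp 2 fun i => 3 * A x₀ i : EuclideanSpace ℝ (Fin n)), ?_⟩
    rw [mem_interior_iff_mem_nhds]
    refine Filter.mem_of_superset (Metric.ball_mem_nhds _ hr) fun z hz => ?_
    refine ⟨_, hv₀, z - (WithLp.toLp 2 fun i => 3 * A x₀ i : EuclideanSpace ℝ (Fin n)), ?_, by abel⟩
    rw [← dist_eq_norm]
    exact (Metric.mem_ball.1 hz).le
  · rintro z ⟨u, hu, w, hw, rfl⟩
    exact ⟨-u, hnegH u hu, -w, by rwa [norm_neg], by abel⟩

end Crest.Agent.R71
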