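import Crest.Agent.R71.Defs

open Finset Pointwise

namespace Crest.Agent.R71

noncomputable section

open Classical in
/-- the level families -/
def fam {N : ℕ} (M : ℕ → ℕ) (Pi : (l : ℕ) → Fin (M l) → Finset (Fin N)) :
    ℕ → Finset (Finset (Fin N))
  | 0 => {univ}
  | l + 1 => insert univ
      ((fam M Pi l ×ˢ fam M Pi l ×ˢ (univ : Finset (Fin (M l)))).image
        fun z => z.1 ∩ z.2.1 ∩ Pi l z.2.2)

theorem univ_mem_fam {N : ℕ} (M : ℕ → ℕ) (Pi : (l : ℕ) → Fin (M l) → Finset (Fin N)) (l : ℕ) :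
    univ ∈ fam M Pi l := by
  cases l with
  | zero => simp [fam]
  | succ l => simp [fam]

theorem inter_mem_fam {N : ℕ} (M : ℕ → ℕ) (Pi : (l : ℕ) → Fin (M l) → Finset (Fin N)) (l : ℕ) :
    ∀ F ∈ fam M Pi l, ∀ F' ∈ fam M Pi l, ∀ h, F ∩ F' ∩ Pi l h ∈ fam M Pi (l + 1) := by
  classical
  intro F hF F' hF' h
  rw [fam]
  refine mem_insert_of_mem (mem_image.2 ⟨(F, F', h), ?_, rfl⟩)
  simp [hF, hF']

theorem card_fam {N : ℕ} (hN : 2 ≤ N) (M : ℕ → ℕ) (Pi : (l : ℕ) → Fin (M l) → Finset (Fin N))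
    (hM : ∀ l, M l ≤ N ^ 2) (d : ℕ → ℕ) (h0 : d 0 = 0) (hd : ∀ l, d (l + 1) = 2 * d l + 3)
    (l : ℕ) : (fam M Pi l).card ≤ N ^ d l := by
  classical
  induction l with
  | zero => simp [fam, h0]
  | succ l ih =>
    rw [fam, hd]
    refine (card_insert_le _ _).trans ?_
    have h1 : ((fam M Pi l ×ˢ fam M Pi l ×ˢ (univ : Finset (Fin (M l)))).image
        fun z => z.1 ∩ z.2.1 ∩ Pi l z.2.2).card ≤ N ^ (2 * d l + 2) := by
      refine card_image_le.trans ?_
      rw [card_product, card_product, card_univ, Fintype.card_fin]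
      calc _ ≤ N ^ d l * (N ^ d l * N ^ 2) :=
            Nat.mul_le_mul ih (Nat.mul_le_mul ih (hM l))
        _ = N ^ (2 * d l + 2) := by ring
    have h2 : 1 ≤ N ^ (2 * d l + 2) := Nat.one_le_pow _ _ (by omega)
    calc _ ≤ N ^ (2 * d l + 2) + 1 := by omega
      _ ≤ N ^ (2 * d l + 2) * 2 := by omega
      _ ≤ N ^ (2 * d l + 2) * N := Nat.mul_le_mul_left _ hN
      _ = N ^ (2 * d l + 3) := by ring

theorem COL_of (h1 : POOL) (h2 : PARAM) (h3 : LEV) (h4 : SUM) : COL := by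
  classical
  intro ε θ hε hθ
  obtain ⟨L, hL⟩ := exists_nat_gt (2 / ε)
  have hL0 : (0 : ℝ) < L := lt_trans (by positivity) hL
  have hLpos : 0 < L := by exact_mod_cast hL0
  have hη : 0 < ε / 6 := by positivity
  obtain ⟨N, d, T, m, p, s, hN, hd0, hd, hp0, hp1, hs0, hps, hT, hm, hE⟩ := h2 L (ε / 6) θ hη hθ
  have hN2 : 2 ≤ N := hN.two_le
  have hN0 : 0 < N := by omega
  have hpool : ∀ l, ∃ (M : ℕ) (Pi : Fin M → Finset (Fin N)), M ≤ N ^ 2 ∧
      (l < L → IsPool (m l) Pi) := by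
    intro l
    by_cases hl : l < L
    · obtain ⟨M, Pi, hM, hP⟩ := h1 N (m l) hN (hm l hl).1 (hm l hl).2.1
      exact ⟨M, Pi, hM, fun _ => hP⟩
    · exact ⟨0, Fin.elim0, Nat.zero_le _, fun h => absurd h hl⟩
  choose M Pi hM hP using hpool
  have hlev : ∀ l, ∃ Cst : ℕ, l < L → ∀ q : ℕ, 0 < q → ∃ D : Finset (Row N q → ℝ),
      D.card ≤ Cst * q ^ (T l * ((2 * d l + 1) * m l)) ∧
      ∀ μ : Col N q → ℝ, (∀ t, 0 ≤ μ t) → ∑ t, μ t ≤ 1 →
        ∃ φ ∈ D, ∀ x, mass μ (cap (fam M Pi l) (p l) x) - 3 * (ε / 6) ≤ φ x ∧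
          φ x ≤ mass μ (cap (fam M Pi (l + 1)) (p (l + 1)) x) := by
    intro l
    by_cases hl : l < L
    · obtain ⟨Cst, hC⟩ := h3 N (M l) (m l) (d l) (T l) (Pi l) (fam M Pi l) (fam M Pi (l + 1))
        (p l) (s l) (ε / 6) hN0 (hp0 l) (hs0 l) hη (hP l hl) (hm l hl).2.2.1
        (card_fam hN2 M Pi hM d hd0 hd l) (hm l hl).2.2.2 (hT l) (inter_mem_fam M Pi l)
      refine ⟨Cst, fun _ => ?_⟩
      rw [hps l]; exact hC
    · exact ⟨0, fun h => absurd h hl⟩
  choose Cst hC using hlev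
  refine ⟨N, ∑ l ∈ range L, T l * ((2 * d l + 1) * m l), ∏ l ∈ range L, Cst l, hN0, hE,
    fun q hq => ?_⟩
  have hD : ∀ l, ∃ D : Finset (Row N q → ℝ), l < L →
      (D.card ≤ Cst l * q ^ (T l * ((2 * d l + 1) * m l)) ∧
      ∀ μ : Col N q → ℝ, (∀ t, 0 ≤ μ t) → ∑ t, μ t ≤ 1 →
        ∃ φ ∈ D, ∀ x, mass μ (cap (fam M Pi l) (p l) x) - 3 * (ε / 6) ≤ φ x ∧
          φ x ≤ mass μ (cap (fam M Pi (l + 1)) (p (l + 1)) x)) := by
    intro l
    by_cases hl : l < L
    · obtain ⟨D, hD⟩ := hC l hl q hq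
      exact ⟨D, fun _ => hD⟩
    · exact ⟨∅, fun h => absurd h hl⟩
  choose D hD using hD
  obtain ⟨A, D', hD', hA1, hA0, hnet⟩ := h4 (Row N q) (Col N q) L
    (fun l x t => cap (fam M Pi l) (p l) x t) D (3 * (ε / 6)) hLpos (by positivity)
    (fun l hl => (hD l hl).2)
  have hNR : (0 : ℝ) < N := by exact_mod_cast hN0
  refine ⟨A, fun x x' hxx => ?_, D', ?_, fun μ hμ hs => ?_⟩
  · refine ⟨(univ.filter fun j => x j = x' j, x), hA1 _ _ fun l _ => ?_, hA0 _ _ fun l _ => ?_⟩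
    · refine ⟨univ, univ_mem_fam M Pi l, fun j _ => rfl, ?_⟩
      have hc : (univ \ univ.filter fun j => x j = x' j).card
          + (univ.filter fun j => x j = x' j).card = N := by
        rw [card_sdiff_add_card_eq_card (subset_univ _)]; simp
      have hc' : ((univ \ univ.filter fun j => x j = x' j).card : ℝ)
          + ((univ.filter fun j => x j = x' j).card : ℝ) = N := by exact_mod_cast hc
      have hxx' : 2 * ((univ.filter fun j => x j = x' j).card : ℝ) ≤ N := by exact_mod_cast hxx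
      have := mul_le_mul_of_nonneg_right (hp1 l) hNR.le
      simp only
      linarith
    · rintro ⟨F, -, hF, hc⟩
      have : F \ (univ.filter fun j => x j = x' j) = ∅ := by
        rw [sdiff_eq_empty_iff_subset]
        intro j hj
        simp only [mem_filter, mem_univ, true_and]
        exact (hF j hj).symm
      simp only [this, card_empty, Nat.cast_zero] at hc
      have := mul_pos (hp0 l) hNR
      linarith
  · refine hD'.trans ?_
    rw [← prod_pow_eq_pow_sum, ← prod_mul_distrib]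
    exact prod_le_prod' fun l hl => (hD l (mem_range.1 hl)).1
  · obtain ⟨φ, hφ, hx⟩ := hnet μ hμ hs
    refine ⟨φ, hφ, fun x => (hx x).trans ?_⟩
    have : 1 / (L : ℝ) ≤ ε / 2 := by
      rw [div_le_iff₀ hL0]
      rw [div_lt_iff₀ hε] at hL
      nlinarith
    linarith

end

end Crest.Agent.R71
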