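import Crest.Agent.R71.Defs

/-! Row 71: the covering of the polar of the cube. -/

open Finset Pointwise

namespace Crest.Agent.R71

theorem cover_l1 {n : ℕ} (μ : EuclideanSpace ℝ (Fin n))
    (h : μ ∈ Crest.AnalysisR.polarSet {x : EuclideanSpace ℝ (Fin n) | ∀ i, |x i| ≤ 1}) :
    ∑ i, |μ i| ≤ 1 := by
  have h1 := h (WithLp.toLp 2 fun i => if 0 ≤ μ i then (1 : ℝ) else -1) (by
    intro i
    simp only
    split_ifs <;> simp)
  rw [PiLp.inner_apply] at h1
  refine le_trans (le_of_eq ?_) h1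
  refine Finset.sum_congr rfl fun i _ => ?_
  simp only [RCLike.inner_apply, conj_trivial]
  split_ifs with hi
  · rw [abs_of_nonneg hi]; ring
  · rw [abs_of_neg (not_le.1 hi)]; ring

theorem cover_norm_le {n : ℕ} (μ : EuclideanSpace ℝ (Fin n)) (h : ∑ i, |μ i| ≤ 1) : ‖μ‖ ≤ 1 := by
  rw [EuclideanSpace.norm_eq]
  refine Real.sqrt_le_one.2 ?_
  refine le_trans (Finset.sum_le_sum fun i _ => ?_) h
  have hi : |μ i| ≤ 1 :=
    le_trans (Finset.single_le_sum (f := fun i => |μ i|) (fun j _ => abs_nonneg _)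
      (Finset.mem_univ i)) h
  rw [Real.norm_eq_abs]
  nlinarith [abs_nonneg (μ i)]

theorem COVER_holds : COVER := by
  classical
  intro R n A a D ha hD
  have ha0 : 0 < a := by linarith
  set P := Crest.AnalysisR.polarSet {x : EuclideanSpace ℝ (Fin n) | ∀ i, |x i| ≤ 1} with hP
  let ok : (R → ℝ) × (R → ℝ) → EuclideanSpace ℝ (Fin n) → Prop := fun φ μ =>
    μ ∈ P ∧ ∀ x, |∑ t, μ t * A x t - (φ.1 x - φ.2 x)| ≤ 1 / (12 * a)
  let rep : (R → ℝ) × (R → ℝ) → EuclideanSpace ℝ (Fin n) := fun φ =>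
    if h : ∃ μ, ok φ μ then h.choose else 0
  refine ⟨(D ×ˢ D).image rep, ?_, ?_⟩
  · refine le_trans Finset.card_image_le ?_
    rw [Finset.card_product, sq]
  intro μ hμ
  have hl1 := cover_l1 μ hμ
  obtain ⟨φ₁, hφ₁, h₁⟩ := hD (fun t => max (μ t) 0) (fun t => le_max_right _ _)
    (le_trans (Finset.sum_le_sum fun t _ => max_le (le_abs_self _) (abs_nonneg _)) hl1)
  obtain ⟨φ₂, hφ₂, h₂⟩ := hD (fun t => max (-μ t) 0) (fun t => le_max_right _ _)
    (le_trans (Finset.sum_le_sum fun t _ => max_le (neg_le_abs _) (abs_nonneg _)) hl1)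
  have hok : ok (φ₁, φ₂) μ := by
    refine ⟨hμ, fun x => ?_⟩
    have e1 : ∑ t, μ t * A x t =
        ∑ t, max (μ t) 0 * A x t - ∑ t, max (-μ t) 0 * A x t := by
      rw [← Finset.sum_sub_distrib]
      refine Finset.sum_congr rfl fun t _ => ?_
      rw [← sub_mul, max_zero_sub_max_neg_zero_eq_self]
    have e2 : (1 : ℝ) / (12 * a) = 1 / (24 * a) + 1 / (24 * a) := by field_simp; ring
    have a1 := abs_le.1 (h₁ x)
    have a2 := abs_le.1 (h₂ x)
    simp only at a1 a2 ⊢
    rw [e1, e2, abs_le]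
    constructor <;> linarith [a1.1, a1.2, a2.1, a2.2]
  have hex : ∃ ν, ok (φ₁, φ₂) ν := ⟨μ, hok⟩
  set y := rep (φ₁, φ₂) with hy
  have hoy : ok (φ₁, φ₂) y := by
    rw [hy]; simp only [rep, dif_pos hex]; exact hex.choose_spec
  simp only [Set.mem_iUnion]
  refine ⟨y, Finset.mem_image.2 ⟨(φ₁, φ₂), Finset.mem_product.2 ⟨hφ₁, hφ₂⟩, rfl⟩, ?_⟩
  refine Set.mem_vadd_set.2 ⟨a⁻¹ • (a • (μ - y)), Set.smul_mem_smul_set ?_, ?_⟩
  · rintro z ⟨u, hu, w, hw, rfl⟩
    have hdiff : ∀ x, |∑ t, (μ t - y t) * A x t| ≤ 1 / (6 * a) := by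
      intro x
      have a1 := abs_le.1 (hok.2 x)
      have a2 := abs_le.1 (hoy.2 x)
      have e1 : ∑ t, (μ t - y t) * A x t = ∑ t, μ t * A x t - ∑ t, y t * A x t := by
        rw [← Finset.sum_sub_distrib]
        exact Finset.sum_congr rfl fun t _ => by ring
      have e2 : (1 : ℝ) / (6 * a) = 1 / (12 * a) + 1 / (12 * a) := by field_simp; ring
      rw [e1, e2, abs_le]
      constructor <;> linarith [a1.1, a1.2, a2.1, a2.2]
    have hu' : inner ℝ u (a • (μ - y)) ≤ 1 / 2 := by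
      have hconv : Convex ℝ {v : EuclideanSpace ℝ (Fin n) | inner ℝ v (a • (μ - y)) ≤ 1 / 2} := by
        intro v hv v' hv' s t hs ht hst
        simp only [Set.mem_ofPred_eq] at hv hv' ⊢
        rw [inner_add_left, real_inner_smul_left, real_inner_smul_left]
        nlinarith
      refine convexHull_min ?_ hconv hu
      rintro v ⟨x, hv⟩
      have hx := abs_le.1 (hdiff x)
      have e3 : 3 * a * (1 / (6 * a)) = 1 / 2 := by field_simp; ring
      simp only [Set.mem_ofPred_eq]
      rw [PiLp.inner_apply]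
      simp only [RCLike.inner_apply, conj_trivial, PiLp.smul_apply, PiLp.sub_apply, smul_eq_mul]
      rcases hv with hv | hv
      · have : ∑ i, a * (μ i - y i) * v i = 3 * a * ∑ t, (μ t - y t) * A x t := by
          rw [Finset.mul_sum]
          exact Finset.sum_congr rfl fun t _ => by rw [hv t]; ring
        rw [this, ← e3]
        exact mul_le_mul_of_nonneg_left hx.2 (by positivity)
      · have : ∑ i, a * (μ i - y i) * v i = 3 * a * (-∑ t, (μ t - y t) * A x t) := by
          rw [← Finset.sum_neg_distrib, Finset.mul_sum]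
          exact Finset.sum_congr rfl fun t _ => by rw [hv t]; ring
        rw [this, ← e3]
        exact mul_le_mul_of_nonneg_left (by linarith [hx.1]) (by positivity)
    have hw' : inner ℝ w (a • (μ - y)) ≤ 1 / 2 := by
      refine le_trans (real_inner_le_norm _ _) ?_
      have n1 := cover_norm_le μ hl1
      have n2 := cover_norm_le y (cover_l1 y hoy.1)
      have n3 : ‖a • (μ - y)‖ ≤ a * 2 := by
        rw [norm_smul, Real.norm_eq_abs, abs_of_pos ha0]
        exact mul_le_mul_of_nonneg_left (le_trans (norm_sub_le _ _) (by linarith)) ha0.le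
      have e4 : 1 / (4 * a) * (a * 2) = 1 / 2 := by field_simp; ring
      rw [← e4]
      exact mul_le_mul hw n3 (norm_nonneg _) (by positivity)
    rw [inner_add_left]
    linarith
  · rw [smul_smul, inv_mul_cancel₀ ha0.ne', one_smul, vadd_eq_add]
    abel

end Crest.Agent.R71
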