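import Crest.Agent.R71.Defs

open Finset

namespace Crest.Agent.R71

theorem exists_enum {N B : ℕ} (hN : 0 < N) (Q : Finset (Fin N)) (hQ : Q.card ≤ B) :
    ∃ e : Fin B → Fin N, ∀ j ∈ Q, ∃ b, e b = j := by
  refine ⟨fun b => if h : (b : ℕ) < Q.card then (Q.equivFin.symm ⟨b, h⟩ : Fin N) else ⟨0, hN⟩,
    fun j hj => ⟨⟨Q.equivFin ⟨j, hj⟩, lt_of_lt_of_le (Q.equivFin ⟨j, hj⟩).2 hQ⟩, ?_⟩⟩
  simp

theorem DESC_holds : DESC := by
  classical
  intro N T B Fam p η hN hη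
  let Ty := Finset (Fin N) × (Fin T → Finset (Fin N))
  have hTy : (0 : ℝ) < Fintype.card Ty := by exact_mod_cast Fintype.card_pos
  set δ : ℝ := η / Fintype.card Ty with hδ
  have hδ0 : 0 < δ := div_pos hη hTy
  let K : ℕ := ⌊1 / δ⌋₊
  refine ⟨N ^ B * (K + 1) ^ Fintype.card Ty, fun q hq => ?_⟩
  let ev : (Fin B → Fin N) → (Fin T × Fin B → Fin q) → Ty → Row N q → Prop := fun e v τ x =>
    ∃ k : Fin T, ∃ F ∈ Fam, F ⊆ τ.2 k ∧ (∀ j ∈ F, ∃ b, e b = j ∧ x j = v (k, b)) ∧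
      p * N ≤ ((F \ τ.1).card : ℝ)
  let Φ : ((Fin B → Fin N) × (Ty → Fin (K + 1))) × (Fin T × Fin B → Fin q) → Row N q → ℝ :=
    fun d x => ∑ τ : Ty, if ev d.1.1 d.2 τ x then ((d.1.2 τ : ℕ) : ℝ) * δ else 0
  refine ⟨univ.image Φ, card_image_le.trans (le_of_eq ?_), fun μ Q y hμ hμ1 hQ => ?_⟩
  · simp [Fintype.card_prod, Fintype.card_fun]
  obtain ⟨e, he⟩ := exists_enum hN Q hQ
  let ty : Col N q → Ty := fun t => (t.1, fun k => Q.filter fun j => t.2 j = y k j)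
  let m : Ty → ℝ := fun τ => ∑ t ∈ univ.filter (fun t => ty t = τ), μ t
  have hm0 : ∀ τ, 0 ≤ m τ := fun τ => sum_nonneg fun t _ => hμ t
  have hm1 : ∀ τ, m τ ≤ 1 := fun τ =>
    (sum_le_sum_of_subset_of_nonneg (filter_subset _ _) fun t _ _ => hμ t).trans hμ1
  let ν : Ty → Fin (K + 1) := fun τ => ⟨⌊m τ / δ⌋₊, Nat.lt_succ_of_le
    (Nat.floor_le_floor (div_le_div_of_nonneg_right (hm1 τ) hδ0.le))⟩
  let v : Fin T × Fin B → Fin q := fun kb => y kb.1 (e kb.2)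
  have hev : ∀ x t, capP Fam p Q y x t ↔ ev e v (ty t) x := by
    intro x t
    constructor
    · rintro ⟨k, F, hF, hFQ, h1, h2⟩
      refine ⟨k, F, hF, fun j hj => mem_filter.2 ⟨hFQ hj, (h1 j hj).2.symm⟩, fun j hj => ?_, h2⟩
      obtain ⟨b, hb⟩ := he j (hFQ hj)
      exact ⟨b, hb, by simp only [v, hb]; rw [(h1 j hj).1, (h1 j hj).2]⟩
    · rintro ⟨k, F, hF, hFQ, h1, h2⟩
      refine ⟨k, F, hF, fun j hj => (mem_filter.1 (hFQ hj)).1, fun j hj => ?_, h2⟩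
      obtain ⟨b, hb, hx⟩ := h1 j hj
      have h3 : t.2 j = y k j := (mem_filter.1 (hFQ hj)).2
      simp only [v, hb] at hx
      exact ⟨hx.trans h3.symm, h3.symm⟩
  have hmass : ∀ x, mass μ (capP Fam p Q y x) = ∑ τ : Ty, if ev e v τ x then m τ else 0 := by
    intro x
    unfold mass
    rw [← sum_fiberwise univ ty]
    refine sum_congr rfl fun τ _ => ?_
    by_cases h : ev e v τ x
    · rw [if_pos h]
      refine sum_congr rfl fun t ht => ?_
      rw [if_pos ((hev x t).2 ((mem_filter.1 ht).2 ▸ h))]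
    · rw [if_neg h]
      refine sum_eq_zero fun t ht => ?_
      rw [if_neg fun h' => h ((mem_filter.1 ht).2 ▸ (hev x t).1 h')]
  refine ⟨Φ ((e, ν), v), mem_image_of_mem _ (mem_univ _), fun x => ?_⟩
  rw [hmass]
  constructor
  · have : η = ∑ _τ : Ty, δ := by
      rw [sum_const, card_univ, nsmul_eq_mul, hδ]; field_simp
    rw [this, ← sum_sub_distrib]
    refine sum_le_sum fun τ _ => ?_
    split_ifs
    · have := Nat.lt_floor_add_one (m τ / δ)
      rw [div_lt_iff₀ hδ0] at this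
      change m τ - δ ≤ (⌊m τ / δ⌋₊ : ℝ) * δ
      linarith
    · linarith
  · refine sum_le_sum fun τ _ => ?_
    split_ifs
    · have := Nat.floor_le (div_nonneg (hm0 τ) hδ0.le)
      rw [le_div_iff₀ hδ0] at this
      exact this
    · exact le_rfl

end Crest.Agent.R71
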