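import Mathlib
import Crest.Prelude.Def_Polar

/-!
# Row 71 (S0094): failure of duality of metric entropy.  Definitions and task statements.

Rows are words `x : Fin N → Fin q`, columns are pairs `t = (W, α)`.
`cap Fam p x t`: some `F ∈ Fam` lies in the agreement set of `x` and `α`, and `|F \ W| ≥ p N`.
The matrix is the average over levels `l < L` of the indicator of `cap (Fam l) (p l)`.
-/

open Finset Pointwise

namespace Crest.Agent.R71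

noncomputable section

open Classical in
/-- `μ`-mass of an event on a finite type. -/
def mass {T : Type} [Fintype T] (μ : T → ℝ) (E : T → Prop) : ℝ := ∑ t, if E t then μ t else 0

abbrev Row (N q : ℕ) := Fin N → Fin q
abbrev Col (N q : ℕ) := Finset (Fin N) × (Fin N → Fin q)

/-- capture at a level -/
def cap {N q : ℕ} (Fam : Finset (Finset (Fin N))) (p : ℝ) (x : Row N q) (t : Col N q) : Prop :=
  ∃ F ∈ Fam, (∀ j ∈ F, x j = t.2 j) ∧ p * N ≤ ((F \ t.1).card : ℝ)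

/-- capture through the revealed rows `y k` restricted to `Q` -/
def capP {N q T : ℕ} (Fam : Finset (Finset (Fin N))) (p : ℝ) (Q : Finset (Fin N))
    (y : Fin T → Row N q) (x : Row N q) (t : Col N q) : Prop :=
  ∃ k : Fin T, ∃ F ∈ Fam, F ⊆ Q ∧ (∀ j ∈ F, x j = t.2 j ∧ y k j = t.2 j) ∧
    p * N ≤ ((F \ t.1).card : ℝ)

/-- the tuple `hs` of pool members is generic for `W` -/
def generic {N M C : ℕ} (Pi : Fin M → Finset (Fin N)) (Fam : Finset (Finset (Fin N)))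
    (p p' : ℝ) (hs : Fin C → Fin M) (W : Finset (Fin N)) : Prop :=
  ∀ F ∈ Fam, ∀ F' ∈ Fam, p ^ 2 / 2 * N ≤ (((F ∩ F') \ W).card : ℝ) →
    ∃ i, p' * N ≤ (((F ∩ F' ∩ Pi (hs i)) \ W).card : ℝ)

/-- Chebyshev property of a pool of `m`-subsets of `Fin N`. -/
def IsPool {N M : ℕ} (m : ℕ) (Pi : Fin M → Finset (Fin N)) : Prop :=
  0 < M ∧ (∀ h, (Pi h).card = m) ∧
    ∀ A : Finset (Fin N), A.Nonempty →
      ((univ.filter fun h => ((A ∩ Pi h).card : ℝ) < (m : ℝ) / N * A.card / 2).card : ℝ)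
        ≤ 4 * N / (m * A.card) * M

/-- POOL: `Pi (a,b) = {j | a j + b ∈ S}`, `a ≠ 0`, `|S| = m`, in `ZMod N`; for `j ≠ j'` the map
`(a,b) ↦ (a j + b, a j' + b)` is a bijection onto the off-diagonal, so the variance of
`|A ∩ Pi h|` is at most `(m/N)|A|`; Chebyshev. -/
def POOL : Prop := ∀ N m : ℕ, N.Prime → 0 < m → m ≤ N →
  ∃ (M : ℕ) (Pi : Fin M → Finset (Fin N)), M ≤ N ^ 2 ∧ IsPool m Pi

/-- INT: `S = ∑ |A k| ≥ n p N ≥ 2 N`, Cauchy–Schwarz `S² ≤ N ∑_{k,k'} |A k ∩ A k'|`; if all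
off-diagonal terms are `< p² N/2` then `S²/2 ≤ S (S - N) ≤ n (n-1) p² N²/2 < (n p N)²/2`. -/
def INT : Prop := ∀ (N : ℕ) (I : Finset ℕ) (A : ℕ → Finset (Fin N)) (p : ℝ), 0 < p → 0 < N →
  2 ≤ p * I.card → (∀ k ∈ I, p * N ≤ ((A k).card : ℝ)) →
  ∃ k ∈ I, ∃ k' ∈ I, k < k' ∧ p ^ 2 / 2 * N ≤ ((A k ∩ A k').card : ℝ)

/-- GEN: for fixed `W` and a pair `F, F'` with `A = (F ∩ F') \ W` large, at most `(lam M)^C`
tuples fail (note `(F ∩ F' ∩ Pi h) \ W = A ∩ Pi h`); union bound, then average over tuples. -/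
def GEN : Prop := ∀ (N q M C : ℕ) (Pi : Fin M → Finset (Fin N)) (Fam : Finset (Finset (Fin N)))
  (p p' lam : ℝ) (μ : Col N q → ℝ), 0 < M → 0 ≤ lam → (∀ t, 0 ≤ μ t) → ∑ t, μ t ≤ 1 →
  (∀ A : Finset (Fin N), p ^ 2 / 2 * N ≤ (A.card : ℝ) →
    ((univ.filter fun h => ((A ∩ Pi h).card : ℝ) < p' * N).card : ℝ) ≤ lam * M) →
  ∃ hs : Fin C → Fin M,
    mass μ (fun t => ¬ generic Pi Fam p p' hs t.1) ≤ (Fam.card : ℝ) ^ 2 * lam ^ C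

/-- GREEDY (from INT): otherwise build `x 0, …, x (T-1)`, each with bad mass `> η` relative to
the earlier ones (pad `y` arbitrarily, `capP` is monotone in the range of `y`); some column `t`
is bad for a set `I` of indices with `2 ≤ p |I|`; INT for `A k = F k \ W` gives `k < k'`,
genericity gives `i`, and `F k ∩ F k' ∩ Pi (hs i)` witnesses `capP` for `x k'`. -/
def GREEDY : Prop := ∀ (N q M C T : ℕ) (Pi : Fin M → Finset (Fin N))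
  (Fam Fam' : Finset (Finset (Fin N))) (p p' η : ℝ) (hs : Fin C → Fin M) (Q : Finset (Fin N))
  (μ : Col N q → ℝ), 0 < N → 0 < q → 0 < p → 0 < η → (∀ t, 0 ≤ μ t) → ∑ t, μ t ≤ 1 →
  2 ≤ p * η * T → (∀ F ∈ Fam, ∀ F' ∈ Fam, ∀ h, F ∩ F' ∩ Pi h ∈ Fam') → (∀ i, Pi (hs i) ⊆ Q) →
  ∃ y : Fin T → Row N q, ∀ x : Row N q,
    mass μ (fun t => generic Pi Fam p p' hs t.1 ∧ cap Fam p x t ∧ ¬ capP Fam' p' Q y x t) ≤ η

/-- DESC: descriptions `(e : Fin B → Fin N, v : Fin T × Fin B → Fin q, ν : Ty → Fin (K+1))` with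
`Ty = Finset (Fin N) × (Fin T → Finset (Fin N))`; `Q ⊆ range e`, `v (k,b) = y k (e b)`, the type of
`t = (W, α)` is `(W, fun k => {j ∈ Q | α j = y k j})`, `ν` = push-forward of `μ` rounded down to
multiples of `η / |Ty|`. -/
def DESC : Prop := ∀ (N T B : ℕ) (Fam : Finset (Finset (Fin N))) (p η : ℝ), 0 < N → 0 < η →
  ∃ Cst : ℕ, ∀ q : ℕ, 0 < q → ∃ D : Finset (Row N q → ℝ), D.card ≤ Cst * q ^ (T * B) ∧
    ∀ (μ : Col N q → ℝ) (Q : Finset (Fin N)) (y : Fin T → Row N q),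
      (∀ t, 0 ≤ μ t) → ∑ t, μ t ≤ 1 → Q.card ≤ B →
      ∃ φ ∈ D, ∀ x, mass μ (capP Fam p Q y x) - η ≤ φ x ∧ φ x ≤ mass μ (capP Fam p Q y x)

/-- LEV (from GEN, GREEDY, DESC): `C = 2d+1`, `p' = s p²/4`, `lam = 8/(s p²)/N`,
`Q = ⋃ i, Pi (hs i)`, `B = (2d+1) m`. -/
def LEV : Prop := ∀ (N M m d T : ℕ) (Pi : Fin M → Finset (Fin N))
  (Fam Fam' : Finset (Finset (Fin N))) (p s η : ℝ), 0 < N → 0 < p → 0 < s → 0 < η →
  IsPool m Pi → s * N ≤ m → Fam.card ≤ N ^ d → (8 / (s * p ^ 2)) ^ (2 * d + 1) ≤ η * N →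
  2 ≤ p * η * T → (∀ F ∈ Fam, ∀ F' ∈ Fam, ∀ h, F ∩ F' ∩ Pi h ∈ Fam') →
  ∃ Cst : ℕ, ∀ q : ℕ, 0 < q → ∃ D : Finset (Row N q → ℝ),
    D.card ≤ Cst * q ^ (T * ((2 * d + 1) * m)) ∧
    ∀ μ : Col N q → ℝ, (∀ t, 0 ≤ μ t) → ∑ t, μ t ≤ 1 →
      ∃ φ ∈ D, ∀ x, mass μ (cap Fam p x) - 3 * η ≤ φ x ∧
        φ x ≤ mass μ (cap Fam' (s * p ^ 2 / 4) x)

/-- PARAM: `d 0 = 0`, `d (l+1) = 2 d l + 3`, `p 0 = 1/2`, `T l = ⌈2/(p l η)⌉`,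
`s l = min 1 (θ / (2 (L+1) (T l) (2 d l + 1)))`, `p (l+1) = s l (p l)²/4`, `N` a large prime,
`m l = ⌈s l N⌉ ≤ 2 (s l) N`. -/
def PARAM : Prop := ∀ (L : ℕ) (η θ : ℝ), 0 < η → 0 < θ →
  ∃ (N : ℕ) (d T m : ℕ → ℕ) (p s : ℕ → ℝ), N.Prime ∧ d 0 = 0 ∧ (∀ l, d (l + 1) = 2 * d l + 3) ∧
    (∀ l, 0 < p l) ∧ (∀ l, p l ≤ 1 / 2) ∧ (∀ l, 0 < s l) ∧
    (∀ l, p (l + 1) = s l * p l ^ 2 / 4) ∧ (∀ l, 2 ≤ p l * η * T l) ∧
    (∀ l < L, 0 < m l ∧ m l ≤ N ∧ s l * N ≤ m l ∧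
      (8 / (s l * p l ^ 2)) ^ (2 * d l + 1) ≤ η * N) ∧
    ((∑ l ∈ range L, T l * ((2 * d l + 1) * m l) : ℕ) : ℝ) ≤ θ * N

/-- SUM: combine per-level nets; telescoping `∑_{l<L} G (l+1) = ∑_{l<L} G l + G L - G 0`. -/
def SUM : Prop := ∀ (R Cn : Type) [Fintype Cn] (L : ℕ) (E : ℕ → R → Cn → Prop)
  (D : ℕ → Finset (R → ℝ)) (η : ℝ), 0 < L → 0 ≤ η →
  (∀ l < L, ∀ μ : Cn → ℝ, (∀ t, 0 ≤ μ t) → ∑ t, μ t ≤ 1 →
    ∃ φ ∈ D l, ∀ x, mass μ (E l x) - η ≤ φ x ∧ φ x ≤ mass μ (E (l + 1) x)) →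
  ∃ (A : R → Cn → ℝ) (D' : Finset (R → ℝ)), D'.card ≤ ∏ l ∈ range L, (D l).card ∧
    (∀ x t, (∀ l < L, E l x t) → A x t = 1) ∧ (∀ x t, (∀ l < L, ¬ E l x t) → A x t = 0) ∧
    ∀ μ : Cn → ℝ, (∀ t, 0 ≤ μ t) → ∑ t, μ t ≤ 1 →
      ∃ φ ∈ D', ∀ x, |∑ t, μ t * A x t - φ x| ≤ η + 1 / L

/-- COL (from POOL, PARAM, LEV, SUM): `Fam 0 = {univ}`,
`Fam (l+1) = insert univ {F ∩ F' ∩ Pi l h}`, `|Fam l| ≤ N ^ d l`; separating column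
`(agreement set of x and x', x)`. -/
def COL : Prop := ∀ ε θ : ℝ, 0 < ε → 0 < θ → ∃ N E Cst : ℕ, 0 < N ∧ (E : ℝ) ≤ θ * N ∧
  ∀ q : ℕ, 0 < q → ∃ A : Row N q → Col N q → ℝ,
    (∀ x x' : Row N q, 2 * (univ.filter fun j => x j = x' j).card ≤ N →
      ∃ t, A x t = 1 ∧ A x' t = 0) ∧
    ∃ D : Finset (Row N q → ℝ), D.card ≤ Cst * q ^ E ∧
      ∀ μ : Col N q → ℝ, (∀ t, 0 ≤ μ t) → ∑ t, μ t ≤ 1 →
        ∃ φ ∈ D, ∀ x, |∑ t, μ t * A x t - φ x| ≤ ε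

/-- ROWS: all members agree with a fixed member off a set of size `≤ N/2`. -/
def ROWS : Prop := ∀ (N q : ℕ) (S : Finset (Row N q)), 0 < q →
  (∀ x ∈ S, ∀ x' ∈ S, N < 2 * (univ.filter fun j => x j = x' j).card) →
  S.card ≤ 2 ^ N * q ^ (N / 2)

/-- The body: `convexHull {± 3 • row x} + closedBall 0 (1/(4a))`. -/
def body {R : Type} {n : ℕ} (A : R → Fin n → ℝ) (a : ℝ) : Set (EuclideanSpace ℝ (Fin n)) :=
  {z | ∃ u ∈ convexHull ℝ {v : EuclideanSpace ℝ (Fin n) |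
      ∃ x : R, (∀ i, v i = 3 * A x i) ∨ (∀ i, v i = -(3 * A x i))},
    ∃ w : EuclideanSpace ℝ (Fin n), ‖w‖ ≤ 1 / (4 * a) ∧ z = u + w}

/-- BODY: it is a symmetric convex body. -/
def BODY : Prop := ∀ (R : Type) [Fintype R] [Nonempty R] (n : ℕ) (A : R → Fin n → ℝ) (a : ℝ),
  1 ≤ a → Convex ℝ (body A a) ∧ IsCompact (body A a) ∧ (interior (body A a)).Nonempty ∧
    (∀ z ∈ body A a, -z ∈ body A a)

/-- COVER: a point of the polar of the cube has `ℓ¹` norm `≤ 1` (so Euclidean norm `≤ 1`); split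
into positive and negative parts, describe each by a member of `D`, pick one representative for
each pair of descriptions that occurs; `a • (μ - y)` pairs to `≤ 1/2` with the hull and `≤ 1/2`
with the ball. -/
def COVER : Prop := ∀ (R : Type) (n : ℕ) (A : R → Fin n → ℝ) (a : ℝ) (D : Finset (R → ℝ)),
  1 ≤ a → (∀ μ : Fin n → ℝ, (∀ t, 0 ≤ μ t) → ∑ t, μ t ≤ 1 →
    ∃ φ ∈ D, ∀ x, |∑ t, μ t * A x t - φ x| ≤ 1 / (24 * a)) →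
  ∃ t₁ : Finset (EuclideanSpace ℝ (Fin n)), t₁.card ≤ D.card ^ 2 ∧
    Crest.AnalysisR.polarSet {x : EuclideanSpace ℝ (Fin n) | ∀ i, |x i| ≤ 1} ⊆
      ⋃ y ∈ t₁, (y +ᵥ (a⁻¹ • Crest.AnalysisR.polarSet (body A a) : Set (EuclideanSpace ℝ (Fin n))))

/-- PACK: rows `3 • A x` lie in the body; two rows in one translate of the cube differ by at most
`2 < 3` in every coordinate. -/
def PACK : Prop := ∀ (R : Type) [Fintype R] (n u : ℕ) (A : R → Fin n → ℝ) (a : ℝ), 1 ≤ a →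
  (∀ S : Finset R, (∀ x ∈ S, ∀ x' ∈ S, ¬ ∃ t, A x t = 1 ∧ A x' t = 0) → S.card ≤ u) →
  ∀ t₂ : Finset (EuclideanSpace ℝ (Fin n)),
    body A a ⊆ ⋃ x ∈ t₂, (x +ᵥ ({z : EuclideanSpace ℝ (Fin n) | ∀ i, |z i| ≤ 1} :
      Set (EuclideanSpace ℝ (Fin n)))) →
    Fintype.card R ≤ u * t₂.card

/-- NUM: with `E ≤ N/(8b)`, for large `q`: `m ≤ (Cst q^E)²` and `q^N ≤ 2^N q^(N/2) k` give
`b log m < log k`. -/
def NUM : Prop := ∀ (b : ℝ) (N E Cst : ℕ), 1 ≤ b → 0 < N → (E : ℝ) ≤ 1 / (8 * b) * N →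
  ∃ q : ℕ, 0 < q ∧ ∀ m k : ℕ, m ≤ (Cst * q ^ E) ^ 2 → q ^ N ≤ 2 ^ N * q ^ (N / 2) * k →
    b * Real.log m < Real.log k

end

end Crest.Agent.R71
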