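import Crest.Agent.R71.Defs

open Finset Pointwise

namespace Crest.Agent.R71

theorem final_of (hCOL : COL) (hROWS : ROWS) (hBODY : BODY) (hCOVER : COVER) (hPACK : PACK)
    (hNUM : NUM) (a b : ℝ) (ha : 1 ≤ a) (hb : 1 ≤ b) :
    ∃ n : ℕ, 0 < n ∧ ∃ K : Set (EuclideanSpace ℝ (Fin n)),
      Convex ℝ K ∧ IsCompact K ∧ (interior K).Nonempty ∧ (∀ x ∈ K, -x ∈ K) ∧
      ∃ t₁ : Finset (EuclideanSpace ℝ (Fin n)),
        Crest.AnalysisR.polarSet {x : EuclideanSpace ℝ (Fin n) | ∀ i, |x i| ≤ 1} ⊆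
          ⋃ y ∈ t₁, (y +ᵥ a⁻¹ • Crest.AnalysisR.polarSet K) ∧
        ∀ t₂ : Finset (EuclideanSpace ℝ (Fin n)),
          K ⊆ ⋃ x ∈ t₂, (x +ᵥ {z : EuclideanSpace ℝ (Fin n) | ∀ i, |z i| ≤ 1}) →
          b * Real.log t₁.card < Real.log t₂.card := by
  classical
  have ha0 : 0 < a := by linarith
  have hb0 : 0 < b := by linarith
  obtain ⟨N, E, Cst, hN, hE, hq⟩ := hCOL (1 / (24 * a)) (1 / (8 * b)) (by positivity) (by positivity)
  obtain ⟨q, hq0, hnum⟩ := hNUM b N E Cst hb hN hE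
  obtain ⟨A, hsep, D, hD, hnet⟩ := hq q hq0
  haveI : Nonempty (Fin q) := ⟨⟨0, hq0⟩⟩
  haveI : Nonempty (Row N q) := inferInstance
  haveI : Nonempty (Col N q) := inferInstance
  let n := Fintype.card (Col N q)
  let e : Col N q ≃ Fin n := Fintype.equivFin _
  let A' : Row N q → Fin n → ℝ := fun x i => A x (e.symm i)
  obtain ⟨h1, h2, h3, h4⟩ := hBODY (Row N q) n A' a ha
  have hnet' : ∀ μ : Fin n → ℝ, (∀ t, 0 ≤ μ t) → ∑ t, μ t ≤ 1 →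
      ∃ φ ∈ D, ∀ x, |∑ t, μ t * A' x t - φ x| ≤ 1 / (24 * a) := by
    intro μ hμ hs
    obtain ⟨φ, hφ, hx⟩ := hnet (fun t => μ (e t)) (fun t => hμ _)
      (by rw [Equiv.sum_comp e μ]; exact hs)
    refine ⟨φ, hφ, fun x => ?_⟩
    have : ∑ t, μ t * A' x t = ∑ t, μ (e t) * A x t := by
      rw [← Equiv.sum_comp e (fun t => μ t * A' x t)]
      simp [A']
    rw [this]; exact hx x
  obtain ⟨t₁, ht₁, hcov⟩ := hCOVER (Row N q) n A' a D ha hnet'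
  refine ⟨n, Fintype.card_pos, body A' a, h1, h2, h3, h4, t₁, hcov, fun t₂ ht₂ => ?_⟩
  have hS : ∀ S : Finset (Row N q), (∀ x ∈ S, ∀ x' ∈ S, ¬ ∃ t, A' x t = 1 ∧ A' x' t = 0) →
      S.card ≤ 2 ^ N * q ^ (N / 2) := by
    intro S hS
    refine hROWS N q S hq0 fun x hx x' hx' => ?_
    by_contra hcon
    obtain ⟨t, ht1, ht0⟩ := hsep x x' (not_lt.mp hcon)
    exact hS x hx x' hx' ⟨e t, by simp [A', ht1], by simp [A', ht0]⟩
  have hp := hPACK (Row N q) n _ A' a ha hS t₂ ht₂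
  refine hnum _ _ (ht₁.trans (Nat.pow_le_pow_left hD 2)) ?_
  simpa using hp

end Crest.Agent.R71
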