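import Crest.Agent.R71.Defs

open Finset

namespace Crest.Agent.R71

open Classical in
lemma gen_count {N M C : ℕ} (Pi : Fin M → Finset (Fin N)) (Fam : Finset (Finset (Fin N)))
    (p p' lam : ℝ) (hlam : 0 ≤ lam)
    (hA : ∀ A : Finset (Fin N), p ^ 2 / 2 * N ≤ (A.card : ℝ) →
      ((univ.filter fun h => ((A ∩ Pi h).card : ℝ) < p' * N).card : ℝ) ≤ lam * M)
    (W : Finset (Fin N)) :
    (((univ : Finset (Fin C → Fin M)).filter fun hs => ¬ generic Pi Fam p p' hs W).card : ℝ)
      ≤ (Fam.card : ℝ) ^ 2 * (lam * M) ^ C := by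
  set P : Finset (Finset (Fin N) × Finset (Fin N)) :=
    (Fam ×ˢ Fam).filter fun FF => p ^ 2 / 2 * N ≤ (((FF.1 ∩ FF.2) \ W).card : ℝ) with hP
  set B : Finset (Fin N) × Finset (Fin N) → Finset (Fin C → Fin M) := fun FF =>
    Fintype.piFinset fun _ => univ.filter fun h =>
      (((((FF.1 ∩ FF.2) \ W) ∩ Pi h).card : ℕ) : ℝ) < p' * N with hB
  have hsub : ((univ : Finset (Fin C → Fin M)).filter fun hs => ¬ generic Pi Fam p p' hs W)
      ⊆ P.biUnion B := by
    intro hs hhs
    rw [mem_filter] at hhs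
    have h := hhs.2
    unfold generic at h
    push Not at h
    obtain ⟨F, hF, F', hF', hl, hi⟩ := h
    rw [mem_biUnion]
    refine ⟨(F, F'), ?_, ?_⟩
    · rw [hP, mem_filter, mem_product]; exact ⟨⟨hF, hF'⟩, hl⟩
    · rw [hB]
      simp only [Fintype.mem_piFinset, mem_filter, mem_univ, true_and]
      intro i
      have e : ((F ∩ F') \ W) ∩ Pi (hs i) = (F ∩ F' ∩ Pi (hs i)) \ W := by
        ext j; simp only [mem_inter, mem_sdiff]; tauto
      rw [e]; exact hi i
  have h1 : (((univ : Finset (Fin C → Fin M)).filter fun hs => ¬ generic Pi Fam p p' hs W).card : ℝ)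
      ≤ ∑ FF ∈ P, ((B FF).card : ℝ) := by
    have := (card_le_card hsub).trans card_biUnion_le
    exact_mod_cast this
  have h2 : ∀ FF ∈ P, ((B FF).card : ℝ) ≤ (lam * M) ^ C := by
    intro FF hFF
    rw [hP, mem_filter] at hFF
    have := hA _ hFF.2
    rw [hB]
    simp only [Fintype.card_piFinset, prod_const, card_univ, Fintype.card_fin]
    push_cast
    exact pow_le_pow_left₀ (by positivity) this C
  have h3 : (P.card : ℝ) ≤ (Fam.card : ℝ) ^ 2 := by
    have : P.card ≤ (Fam ×ˢ Fam).card := card_filter_le _ _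
    rw [card_product] at this
    have h' : (P.card : ℝ) ≤ (Fam.card : ℝ) * Fam.card := by exact_mod_cast this
    nlinarith
  calc _ ≤ ∑ FF ∈ P, ((B FF).card : ℝ) := h1
    _ ≤ ∑ _FF ∈ P, (lam * M) ^ C := sum_le_sum h2
    _ = P.card * (lam * M) ^ C := by rw [sum_const, nsmul_eq_mul]
    _ ≤ _ := mul_le_mul_of_nonneg_right h3 (by positivity)

theorem GEN_holds : GEN := by
  classical
  intro N q M C Pi Fam p p' lam μ hM hlam hμ hμ1 hA
  have : Nonempty (Fin M) := ⟨⟨0, hM⟩⟩
  have key : ∑ hs : Fin C → Fin M, mass μ (fun t => ¬ generic Pi Fam p p' hs t.1)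
      ≤ ∑ _hs : Fin C → Fin M, (Fam.card : ℝ) ^ 2 * lam ^ C := by
    unfold mass
    rw [sum_comm]
    have h1 : ∀ t : Col N q, (∑ hs : Fin C → Fin M,
        @ite ℝ (¬ generic Pi Fam p p' hs t.1) (Classical.propDecidable _) (μ t) 0)
        ≤ μ t * ((Fam.card : ℝ) ^ 2 * (lam * M) ^ C) := by
      intro t
      have := gen_count (C := C) Pi Fam p p' lam hlam hA t.1
      have e : (∑ hs : Fin C → Fin M,
          @ite ℝ (¬ generic Pi Fam p p' hs t.1) (Classical.propDecidable _) (μ t) 0)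
          = ∑ hs ∈ (univ : Finset (Fin C → Fin M)).filter
              (fun hs => ¬ generic Pi Fam p p' hs t.1), μ t := by
        rw [sum_filter]
        refine sum_congr rfl fun hs _ => ?_
        congr
      rw [e, sum_const, nsmul_eq_mul, mul_comm]
      refine mul_le_mul_of_nonneg_left ?_ (hμ t)
      convert this
    refine (sum_le_sum fun t _ => h1 t).trans ?_
    rw [← sum_mul, sum_const, nsmul_eq_mul]
    simp only [card_univ, Fintype.card_pi, Fintype.card_fin, prod_const]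
    push_cast
    have h0 : 0 ≤ (Fam.card : ℝ) ^ 2 * (lam * M) ^ C := by positivity
    calc _ ≤ 1 * ((Fam.card : ℝ) ^ 2 * (lam * M) ^ C) := mul_le_mul_of_nonneg_right hμ1 h0
      _ = _ := by rw [mul_pow]; ring
  obtain ⟨hs, -, h⟩ := exists_le_of_sum_le univ_nonempty key
  exact ⟨hs, h⟩

end Crest.Agent.R71
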