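import Crest.Agent.R71.Defs

open Finset

namespace Crest.Agent.R71

noncomputable section

/-- iterated padding sequence used in the greedy argument -/
def gseq {R : Type} {T : ℕ} (d : R) (f : (Fin T → R) → R) : ℕ → (Fin T → R)
  | 0 => fun _ => d
  | (k + 1) => fun j => if (j : ℕ) = k then f (gseq d f k) else gseq d f k j

theorem gseq_lt {R : Type} {T : ℕ} (d : R) (f : (Fin T → R) → R) (k : ℕ) (j : Fin T)
    (h : (j : ℕ) < k) : gseq d f k j = f (gseq d f j) := by
  induction k with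
  | zero => omega
  | succ k ih =>
    by_cases hj : (j : ℕ) = k
    · simp only [gseq, hj, if_true]
    · simp only [gseq, hj, if_false]
      exact ih (by omega)

theorem GREEDY_of (hI : INT) : GREEDY := by
  classical
  intro N q M C T Pi Fam Fam' p p' η hs Q μ hN hq hp hη hμ0 hμ1 hT hFam hQ
  by_contra hcon
  push Not at hcon
  choose f hf using hcon
  have hTpos : 0 < T := by
    rcases Nat.eq_zero_or_pos T with h | h
    · subst h
      simp at hT
      linarith
    · exact h
  let d : Row N q := fun _ => ⟨0, hq⟩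
  let Y : ℕ → (Fin T → Row N q) := gseq d f
  let bad : ℕ → Col N q → Prop := fun k t =>
    generic Pi Fam p p' hs t.1 ∧ cap Fam p (f (Y k)) t ∧ ¬ capP Fam' p' Q (Y k) (f (Y k)) t
  have hbad : ∀ k, η < ∑ t, if bad k t then μ t else 0 := by
    intro k
    have h0 : η < mass μ (bad k) := hf (Y k)
    refine lt_of_lt_of_eq h0 ?_
    unfold mass
    refine Finset.sum_congr rfl fun t _ => ?_
    by_cases hb : bad k t <;> simp only [hb, if_true, if_false]
  have hex : ∃ t, 2 ≤ p * (((range T).filter fun k => bad k t).card : ℝ) := by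
    by_contra hne
    push Not at hne
    have h1 : ∑ _k ∈ range T, η < ∑ k ∈ range T, ∑ t, if bad k t then μ t else 0 :=
      Finset.sum_lt_sum_of_nonempty ⟨0, mem_range.2 hTpos⟩ (fun k _ => hbad k)
    rw [Finset.sum_comm] at h1
    have h2 : ∀ t, (∑ k ∈ range T, if bad k t then μ t else 0) ≤ μ t * (η * T) := by
      intro t
      rw [← Finset.sum_filter, Finset.sum_const, nsmul_eq_mul, mul_comm]
      apply mul_le_mul_of_nonneg_left _ (hμ0 t)
      have h3 := hne t
      have h4 : p * (((range T).filter fun k => bad k t).card : ℝ) ≤ p * (η * T) := by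
        nlinarith
      exact le_of_mul_le_mul_left h4 hp
    have h5 : (∑ t, ∑ k ∈ range T, if bad k t then μ t else 0) ≤ ∑ t, μ t * (η * T) :=
      Finset.sum_le_sum fun t _ => h2 t
    rw [← Finset.sum_mul] at h5
    have h6 : (0 : ℝ) ≤ η * T := by positivity
    have h7 : (∑ t, μ t) * (η * T) ≤ 1 * (η * T) := mul_le_mul_of_nonneg_right hμ1 h6
    simp only [Finset.sum_const, card_range, nsmul_eq_mul] at h1
    linarith
  obtain ⟨t, ht⟩ := hex
  set I := (range T).filter fun k => bad k t with hIdef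
  have hF : ∀ k, ∃ F : Finset (Fin N), k ∈ I → F ∈ Fam ∧ (∀ j ∈ F, f (Y k) j = t.2 j) ∧
      p * N ≤ ((F \ t.1).card : ℝ) := by
    intro k
    by_cases hk : k ∈ I
    · obtain ⟨F, hF1, hF2, hF3⟩ := (mem_filter.1 hk).2.2.1
      exact ⟨F, fun _ => ⟨hF1, hF2, hF3⟩⟩
    · exact ⟨∅, fun h => absurd h hk⟩
  choose F hF using hF
  obtain ⟨k, hk, k', hk', hlt, hcard⟩ :=
    hI N I (fun k => F k \ t.1) p hp hN ht (fun k hk => (hF k hk).2.2)
  have hb' := (mem_filter.1 hk').2
  have hkT : k < T := mem_range.1 (mem_filter.1 hk).1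
  have heq : (F k ∩ F k') \ t.1 = (F k \ t.1) ∩ (F k' \ t.1) := by
    ext j
    simp only [mem_sdiff, mem_inter]
    tauto
  obtain ⟨i, hi⟩ := hb'.1 (F k) (hF k hk).1 (F k') (hF k' hk').1 (by rw [heq]; exact hcard)
  apply hb'.2.2
  refine ⟨⟨k, hkT⟩, F k ∩ F k' ∩ Pi (hs i), hFam _ (hF k hk).1 _ (hF k' hk').1 _, ?_, ?_, hi⟩
  · exact Finset.inter_subset_right.trans (hQ i)
  · intro j hj
    have hj1 : j ∈ F k := (mem_inter.1 (mem_inter.1 hj).1).1
    have hj2 : j ∈ F k' := (mem_inter.1 (mem_inter.1 hj).1).2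
    refine ⟨(hF k' hk').2.1 j hj2, ?_⟩
    have : Y k' ⟨k, hkT⟩ = f (Y k) := gseq_lt d f k' ⟨k, hkT⟩ hlt
    rw [this]
    exact (hF k hk).2.1 j hj1

end

end Crest.Agent.R71
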