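import Crest.Agent.R71.Defs

open Finset

namespace Crest.Agent.R71

theorem INT_holds : INT := by
  classical
  intro N I A p hp hN hn hA
  by_contra hcon
  push Not at hcon
  have hoff : ∀ k ∈ I, ∀ k' ∈ I, k ≠ k' → ((A k ∩ A k').card : ℝ) ≤ p ^ 2 / 2 * N := by
    intro k hk k' hk' hne
    rcases lt_or_gt_of_ne hne with h | h
    · exact (hcon k hk k' hk' h).le
    · rw [inter_comm]; exact (hcon k' hk' k hk h).le
  set ind : ℕ → Fin N → ℝ := fun k j => if j ∈ A k then 1 else 0 with hind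
  have hcard : ∀ k, ((A k).card : ℝ) = ∑ j, ind k j := by
    intro k
    simp only [hind]
    rw [Finset.sum_boole]
    congr 1
    congr 1
    ext j; simp
  have hcard2 : ∀ k k', ((A k ∩ A k').card : ℝ) = ∑ j, ind k j * ind k' j := by
    intro k k'
    have : ∀ j, ind k j * ind k' j = if j ∈ A k ∩ A k' then 1 else 0 := by
      intro j
      simp only [hind, mem_inter]
      by_cases h1 : j ∈ A k <;> by_cases h2 : j ∈ A k' <;> simp [h1, h2]
    simp_rw [this]
    rw [Finset.sum_boole]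
    congr 1
    congr 1
    ext j; simp
  set S : ℝ := ∑ k ∈ I, ((A k).card : ℝ) with hS
  have hS1 : S = ∑ j, ∑ k ∈ I, ind k j := by
    rw [hS, Finset.sum_comm]
    exact Finset.sum_congr rfl fun k _ => hcard k
  have hS2 : ∑ j, (∑ k ∈ I, ind k j) ^ 2 = ∑ k ∈ I, ∑ k' ∈ I, ((A k ∩ A k').card : ℝ) := by
    simp_rw [hcard2, sq, Finset.sum_mul_sum]
    rw [Finset.sum_comm]
    refine Finset.sum_congr rfl fun k _ => ?_
    rw [Finset.sum_comm]
  have hCS : S ^ 2 ≤ N * ∑ j, (∑ k ∈ I, ind k j) ^ 2 := by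
    rw [hS1]
    have := sq_sum_le_card_mul_sum_sq (s := (univ : Finset (Fin N)))
      (f := fun j => ∑ k ∈ I, ind k j)
    simpa using this
  have hrow : ∀ k ∈ I, ∑ k' ∈ I, ((A k ∩ A k').card : ℝ) ≤
      ((A k).card : ℝ) + ((I.card : ℝ) - 1) * (p ^ 2 / 2 * N) := by
    intro k hk
    rw [← Finset.add_sum_erase I _ hk, inter_self]
    have h1 : ∑ k' ∈ I.erase k, ((A k ∩ A k').card : ℝ) ≤
        ∑ _k' ∈ I.erase k, p ^ 2 / 2 * (N : ℝ) :=
      Finset.sum_le_sum fun k' hk' =>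
        hoff k hk k' (mem_of_mem_erase hk') (ne_of_mem_erase hk').symm
    rw [Finset.sum_const, Finset.card_erase_of_mem hk, nsmul_eq_mul,
      Nat.cast_sub (Finset.card_pos.mpr ⟨k, hk⟩)] at h1
    simp only [Nat.cast_one] at h1
    linarith
  have htot : ∑ k ∈ I, ∑ k' ∈ I, ((A k ∩ A k').card : ℝ) ≤
      S + I.card * (((I.card : ℝ) - 1) * (p ^ 2 / 2 * N)) := by
    have := Finset.sum_le_sum hrow
    rw [Finset.sum_add_distrib, Finset.sum_const, nsmul_eq_mul] at this
    exact this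
  have hlow : (I.card : ℝ) * (p * N) ≤ S := by
    have := Finset.sum_le_sum hA
    rw [Finset.sum_const, nsmul_eq_mul] at this
    exact this
  have hNr : (0 : ℝ) < N := by exact_mod_cast hN
  set n : ℝ := (I.card : ℝ) with hn'
  have hnpos : 0 < n := by
    by_contra h
    push Not at h
    nlinarith
  rw [hS2] at hCS
  have h1 : S ^ 2 ≤ N * (S + n * ((n - 1) * (p ^ 2 / 2 * N))) :=
    hCS.trans (mul_le_mul_of_nonneg_left htot hNr.le)
  set u : ℝ := n * (p * N) with hu
  have hu2 : 2 * N ≤ u := by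
    have : u = (p * n) * N := by rw [hu]; ring
    rw [this]; exact mul_le_mul_of_nonneg_right hn hNr.le
  have h2 : N * (n * ((n - 1) * (p ^ 2 / 2 * N))) = u ^ 2 / 2 - n * (p * N) ^ 2 / 2 := by
    rw [hu]; ring
  have h3 : 0 < n * (p * N) ^ 2 / 2 := by positivity
  have h4 : u ^ 2 / 2 ≤ S ^ 2 - N * S := by nlinarith
  nlinarith

end Crest.Agent.R71
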