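import Crest.Agent.R71.Defs

open Finset

namespace Crest.Agent.R71

theorem lev_mass_mono {T : Type} [Fintype T] (μ : T → ℝ) (hμ : ∀ t, 0 ≤ μ t) (E E' : T → Prop)
    (h : ∀ t, E t → E' t) : mass μ E ≤ mass μ E' := by
  unfold mass
  refine Finset.sum_le_sum fun t _ => ?_
  by_cases h1 : E t
  · simp [h1, h t h1]
  · by_cases h2 : E' t <;> simp [h1, h2, hμ t]

theorem lev_mass_three {T : Type} [Fintype T] (μ : T → ℝ) (hμ : ∀ t, 0 ≤ μ t)
    (E G P : T → Prop) :
    mass μ E ≤ mass μ (fun t => ¬ G t) + mass μ (fun t => G t ∧ E t ∧ ¬ P t) + mass μ P := by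
  unfold mass
  rw [← Finset.sum_add_distrib, ← Finset.sum_add_distrib]
  refine Finset.sum_le_sum fun t _ => ?_
  have := hμ t
  by_cases h1 : E t <;> by_cases h2 : G t <;> by_cases h3 : P t <;> simp [h1, h2, h3] <;> linarith

theorem LEV_of (h1 : GEN) (h2 : GREEDY) (h3 : DESC) : LEV := by
  classical
  intro N M m d T Pi Fam Fam' p s η hN hp hs hη hpool hsm hFam hlam hT hcl
  obtain ⟨Cst, hC⟩ := h3 N T ((2 * d + 1) * m) Fam' (s * p ^ 2 / 4) η hN hη
  refine ⟨Cst, fun q hq => ?_⟩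
  obtain ⟨D, hD, hDμ⟩ := hC q hq
  refine ⟨D, hD, fun μ hμ0 hμ1 => ?_⟩
  have hNr : (0 : ℝ) < N := by exact_mod_cast hN
  have hsp : 0 < s * p ^ 2 := by positivity
  have hmr : (0 : ℝ) < m := lt_of_lt_of_le (by positivity) hsm
  obtain ⟨hM, hcard, hcheb⟩ := hpool
  have hMr : (0 : ℝ) < M := by exact_mod_cast hM
  have hlam0 : 0 ≤ 8 / (s * p ^ 2) / N := by positivity
  obtain ⟨hs', hgen⟩ := h1 N q M (2 * d + 1) Pi Fam p (s * p ^ 2 / 4) (8 / (s * p ^ 2) / N) μ hM
    hlam0 hμ0 hμ1 (by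
      intro A hA
      have hA0 : (0 : ℝ) < A.card := lt_of_lt_of_le (by positivity) hA
      have hAne : A.Nonempty := Finset.card_pos.mp (by exact_mod_cast hA0)
      have hsN : s ≤ (m : ℝ) / N := by rw [le_div_iff₀ hNr]; exact hsm
      have hsub : (univ.filter fun h => ((A ∩ Pi h).card : ℝ) < s * p ^ 2 / 4 * N) ⊆
          (univ.filter fun h => ((A ∩ Pi h).card : ℝ) < (m : ℝ) / N * A.card / 2) := by
        intro h hh
        simp only [Finset.mem_filter, Finset.mem_univ, true_and] at hh ⊢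
        refine lt_of_lt_of_le hh ?_
        have : s * (p ^ 2 / 2 * N) ≤ (m : ℝ) / N * A.card :=
          mul_le_mul hsN hA (by positivity) (by positivity)
        linarith
      have hc := hcheb A hAne
      have hc' : ((univ.filter fun h => ((A ∩ Pi h).card : ℝ) < s * p ^ 2 / 4 * N).card : ℝ) ≤
          ((univ.filter fun h => ((A ∩ Pi h).card : ℝ) < (m : ℝ) / N * A.card / 2).card : ℝ) := by
        exact_mod_cast Finset.card_le_card hsub
      refine hc'.trans (hc.trans ?_)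
      refine mul_le_mul_of_nonneg_right ?_ hMr.le
      rw [div_div, div_le_div_iff₀ (by positivity) (by positivity)]
      have : (s * N) * (p ^ 2 / 2 * N) ≤ (m : ℝ) * A.card :=
        mul_le_mul hsm hA (by positivity) hmr.le
      nlinarith)
  have hgen' : mass μ (fun t => ¬ generic Pi Fam p (s * p ^ 2 / 4) hs' t.1) ≤ η := by
    refine hgen.trans ?_
    have hF : (Fam.card : ℝ) ≤ (N : ℝ) ^ d := by exact_mod_cast hFam
    have hF2 : (Fam.card : ℝ) ^ 2 ≤ ((N : ℝ) ^ d) ^ 2 := pow_le_pow_left₀ (by positivity) hF 2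
    calc (Fam.card : ℝ) ^ 2 * (8 / (s * p ^ 2) / N) ^ (2 * d + 1)
        ≤ ((N : ℝ) ^ d) ^ 2 * (8 / (s * p ^ 2) / N) ^ (2 * d + 1) :=
          mul_le_mul_of_nonneg_right hF2 (by positivity)
      _ = (8 / (s * p ^ 2)) ^ (2 * d + 1) / N := by
          rw [div_pow (8 / (s * p ^ 2)) (N : ℝ)]
          field_simp
          ring
      _ ≤ η := by rw [div_le_iff₀ hNr]; exact hlam
  set Q : Finset (Fin N) := univ.biUnion fun i => Pi (hs' i) with hQ
  have hQc : Q.card ≤ (2 * d + 1) * m := by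
    refine Finset.card_biUnion_le.trans ?_
    simp [hcard]
  obtain ⟨y, hy⟩ := h2 N q M (2 * d + 1) T Pi Fam Fam' p (s * p ^ 2 / 4) η hs' Q μ hN hq hp hη
    hμ0 hμ1 hT hcl (fun i => Finset.subset_biUnion_of_mem (fun i => Pi (hs' i)) (mem_univ i))
  obtain ⟨φ, hφD, hφ⟩ := hDμ μ Q y hμ0 hμ1 hQc
  refine ⟨φ, hφD, fun x => ⟨?_, ?_⟩⟩
  · have h3' := lev_mass_three μ hμ0 (cap Fam p x)
      (fun t => generic Pi Fam p (s * p ^ 2 / 4) hs' t.1) (capP Fam' (s * p ^ 2 / 4) Q y x)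
    have := hy x
    have := (hφ x).1
    linarith
  · refine (hφ x).2.trans (lev_mass_mono μ hμ0 _ _ ?_)
    rintro t ⟨k, F, hF, -, hx, hc⟩
    exact ⟨F, hF, fun j hj => (hx j hj).1, hc⟩

end Crest.Agent.R71
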