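import Crest.Agent.R71.Defs

namespace Crest.Agent.R71

theorem NUM_holds : NUM := by
  intro b N E Cst hb hN hE
  set X : ℝ := 4 * (2 * b * Real.log (Cst + 1) + N * Real.log 2) with hX
  obtain ⟨q, hq⟩ := exists_nat_gt (Real.exp X)
  have hq0 : (0 : ℝ) < q := (Real.exp_pos X).trans hq
  have hq0' : 0 < q := by exact_mod_cast hq0
  have hq1 : (1 : ℝ) ≤ q := by exact_mod_cast hq0'
  have hlq : X < Real.log q := by
    rw [Real.lt_log_iff_exp_lt hq0]; exact hq
  have hlq0 : 0 ≤ Real.log q := Real.log_nonneg hq1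
  have hC0 : 0 ≤ Real.log (Cst + 1 : ℝ) := Real.log_nonneg (by
    have : (0 : ℝ) ≤ Cst := Nat.cast_nonneg _
    linarith)
  refine ⟨q, hq0', fun m k hm hk => ?_⟩
  have h1 : Real.log m ≤ 2 * Real.log (Cst + 1) + 2 * E * Real.log q := by
    rcases Nat.eq_zero_or_pos m with rfl | hm0
    · simp only [Nat.cast_zero, Real.log_zero]; positivity
    · have h2 : (m : ℝ) ≤ ((Cst + 1) * (q : ℝ) ^ E) ^ 2 := by
        have h3 : (m : ℝ) ≤ ((Cst : ℝ) * (q : ℝ) ^ E) ^ 2 := by exact_mod_cast hm
        refine h3.trans ?_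
        gcongr
        linarith
      have h4 := Real.log_le_log (by exact_mod_cast hm0) h2
      rw [Real.log_pow, Real.log_mul (by positivity) (by positivity), Real.log_pow] at h4
      push_cast at h4
      linarith
  have hk0 : 0 < k := by
    rcases Nat.eq_zero_or_pos k with rfl | h
    · have := pow_pos hq0' N
      omega
    · exact h
  have h5 : (N : ℝ) * Real.log q ≤ N * Real.log 2 + (N / 2 : ℕ) * Real.log q + Real.log k := by
    have h6 : (q : ℝ) ^ N ≤ 2 ^ N * (q : ℝ) ^ (N / 2) * k := by exact_mod_cast hk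
    have hk1 : (0 : ℝ) < k := by exact_mod_cast hk0
    have h7 := Real.log_le_log (by positivity) h6
    rwa [Real.log_pow, Real.log_mul (by positivity) (by positivity),
      Real.log_mul (by positivity) (by positivity), Real.log_pow, Real.log_pow] at h7
  have h8 : ((N / 2 : ℕ) : ℝ) ≤ N / 2 := Nat.cast_div_le
  have h9 : b * E ≤ N / 8 := by
    have : b * E ≤ b * (1 / (8 * b) * N) := by gcongr
    have h10 : b * (1 / (8 * b) * N) = N / 8 := by field_simp
    linarith
  have hN1 : (1 : ℝ) ≤ N := by exact_mod_cast hN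
  have h11 : b * Real.log m ≤ 2 * b * Real.log (Cst + 1) + 2 * (b * E) * Real.log q := by
    have := mul_le_mul_of_nonneg_left h1 (by linarith : (0 : ℝ) ≤ b)
    linarith
  have h12 : (b * E) * Real.log q ≤ N / 8 * Real.log q := by gcongr
  have h13 : ((N / 2 : ℕ) : ℝ) * Real.log q ≤ N / 2 * Real.log q := by gcongr
  have h14 : Real.log q ≤ N * Real.log q := by nlinarith
  linarith

end Crest.Agent.R71
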