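import Crest.Agent.R71.Defs

set_option autoImplicit false

open Finset Pointwise

namespace Crest.Agent.R71

theorem PACK_holds : PACK := by
  classical
  intro R _ n u A a ha hS t₂ hcov
  have hrow : ∀ x : R, ∃ y ∈ t₂, ∀ i, |3 * A x i - y i| ≤ 1 := by
    intro x
    have hm : (WithLp.toLp 2 (fun i => 3 * A x i) : EuclideanSpace ℝ (Fin n)) ∈ body A a := by
      refine ⟨_, subset_convexHull ℝ _ ⟨x, Or.inl fun i => rfl⟩, 0, ?_, (add_zero _).symm⟩
      rw [norm_zero]; positivity
    have := hcov hm
    simp only [Set.mem_iUnion] at this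
    obtain ⟨y, hy, z, hz, hzy⟩ := this
    refine ⟨y, hy, fun i => ?_⟩
    have h1 : y i + z i = 3 * A x i := by
      have := congrArg (fun v : EuclideanSpace ℝ (Fin n) => v i) hzy
      simpa using this
    rw [← h1, add_sub_cancel_left]
    exact hz i
  choose g hg hgi using hrow
  rw [← Finset.card_univ]
  refine Finset.card_le_mul_card_image_of_maps_to (f := g) (fun x _ => hg x) u fun y _ => ?_
  refine hS _ fun x hx x' hx' => ?_
  rintro ⟨t, h1, h2⟩
  have e1 := (Finset.mem_filter.1 hx).2
  have e2 := (Finset.mem_filter.1 hx').2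
  have a1 := hgi x t
  have a2 := hgi x' t
  rw [e1, h1] at a1
  rw [e2, h2] at a2
  have := abs_le.1 a1
  have := abs_le.1 a2
  linarith [this.1, this.2, (abs_le.1 a1).1, (abs_le.1 a1).2]

end Crest.Agent.R71
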