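import Crest.Agent.R71.Defs

open Finset

namespace Crest.Agent.R71

namespace PARAM

def dd : ℕ → ℕ
  | 0 => 0
  | l + 1 => 2 * dd l + 3

noncomputable def TT (η x : ℝ) : ℕ := ⌈2 / (x * η)⌉₊

noncomputable def ss (L : ℕ) (η θ : ℝ) (l : ℕ) (x : ℝ) : ℝ :=
  min 1 (θ / (2 * ((L : ℝ) + 1) * (TT η x) * (2 * (dd l : ℝ) + 1)))

noncomputable def pp (L : ℕ) (η θ : ℝ) : ℕ → ℝ
  | 0 => 1 / 2
  | l + 1 => ss L η θ l (pp L η θ l) * pp L η θ l ^ 2 / 4

theorem TT_pos {η x : ℝ} (hη : 0 < η) (hx : 0 < x) : 0 < TT η x := by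
  unfold TT
  exact Nat.ceil_pos.mpr (by positivity)

theorem ss_pos {L : ℕ} {η θ : ℝ} (hη : 0 < η) (hθ : 0 < θ) (l : ℕ) {x : ℝ} (hx : 0 < x) :
    0 < ss L η θ l x := by
  unfold ss
  have h : (0 : ℝ) < TT η x := by exact_mod_cast TT_pos hη hx
  exact lt_min one_pos (by positivity)

theorem ss_le_one (L : ℕ) (η θ : ℝ) (l : ℕ) (x : ℝ) : ss L η θ l x ≤ 1 := min_le_left _ _

theorem pp_bd {L : ℕ} {η θ : ℝ} (hη : 0 < η) (hθ : 0 < θ) (l : ℕ) :
    0 < pp L η θ l ∧ pp L η θ l ≤ 1 / 2 := by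
  induction l with
  | zero => simp [pp]
  | succ l ih =>
    obtain ⟨h1, h2⟩ := ih
    have h3 := ss_pos (L := L) hη hθ l h1
    have h4 := ss_le_one L η θ l (pp L η θ l)
    refine ⟨by unfold pp; positivity, ?_⟩
    unfold pp
    have h5 : pp L η θ l ^ 2 ≤ 1 := by nlinarith
    have h6 : ss L η θ l (pp L η θ l) * pp L η θ l ^ 2 ≤ 1 * 1 :=
      mul_le_mul h4 h5 (by positivity) (by norm_num)
    linarith

end PARAM

open PARAM in
theorem PARAM_holds : PARAM := by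
  intro L η θ hη hθ
  set p : ℕ → ℝ := pp L η θ with hp
  set s : ℕ → ℝ := fun l => ss L η θ l (p l) with hs
  set T : ℕ → ℕ := fun l => TT η (p l) with hT
  have hp0 : ∀ l, 0 < p l := fun l => (pp_bd hη hθ l).1
  have hp1 : ∀ l, p l ≤ 1 / 2 := fun l => (pp_bd hη hθ l).2
  have hs0 : ∀ l, 0 < s l := fun l => ss_pos hη hθ l (hp0 l)
  have hs1 : ∀ l, s l ≤ 1 := fun l => ss_le_one _ _ _ _ _
  set B : ℝ := ∑ l ∈ range L, (1 / s l + (8 / (s l * p l ^ 2)) ^ (2 * dd l + 1) / η) with hB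
  obtain ⟨N, hN, hNp⟩ := Nat.exists_infinite_primes ⌈B⌉₊
  have hBN : B ≤ N := (Nat.le_ceil B).trans (by exact_mod_cast hN)
  have hterm : ∀ l < L, 1 / s l + (8 / (s l * p l ^ 2)) ^ (2 * dd l + 1) / η ≤ N := by
    intro l hl
    refine le_trans ?_ hBN
    refine single_le_sum (f := fun l => 1 / s l + (8 / (s l * p l ^ 2)) ^ (2 * dd l + 1) / η)
      (fun i _ => ?_) (mem_range.mpr hl)
    have := hs0 i
    have := hp0 i
    positivity
  have hN0 : (0 : ℝ) < N := by exact_mod_cast hNp.pos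
  have hsN : ∀ l < L, 1 ≤ s l * N := by
    intro l hl
    have h1 := hterm l hl
    have h2 := hs0 l
    have h3 := hp0 l
    have h4 : 0 ≤ (8 / (s l * p l ^ 2)) ^ (2 * dd l + 1) / η := by positivity
    have h5 : 1 / s l ≤ N := by linarith
    rw [div_le_iff₀ h2] at h5
    linarith
  refine ⟨N, dd, T, fun l => ⌈s l * N⌉₊, p, s, hNp, rfl, fun l => rfl, hp0, hp1, hs0,
    fun l => rfl, fun l => ?_, fun l hl => ⟨?_, ?_, Nat.le_ceil _, ?_⟩, ?_⟩
  · have h1 : 2 / (p l * η) ≤ (T l : ℝ) := Nat.le_ceil _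
    have h2 : 0 < p l * η := mul_pos (hp0 l) hη
    rw [div_le_iff₀ h2] at h1
    linarith
  · exact Nat.ceil_pos.mpr (mul_pos (hs0 l) hN0)
  · apply Nat.ceil_le.mpr
    have := hs1 l
    nlinarith
  · have h1 := hterm l hl
    have h2 := hs0 l
    have h4 : 0 ≤ 1 / s l := by positivity
    have h5 : (8 / (s l * p l ^ 2)) ^ (2 * dd l + 1) / η ≤ N := by linarith
    rw [div_le_iff₀ hη] at h5
    linarith
  · push_cast
    have key : ∀ l ∈ range L,
        (T l : ℝ) * ((2 * (dd l : ℝ) + 1) * (⌈s l * N⌉₊ : ℝ)) ≤ θ * N / ((L : ℝ) + 1) := by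
      intro l hl
      have hl' := mem_range.mp hl
      have h1 := hsN l hl'
      have h2 : (⌈s l * N⌉₊ : ℝ) ≤ 2 * (s l * N) := by
        have := (Nat.ceil_lt_add_one (a := s l * N) (by linarith)).le
        linarith
      have hT0 : (0 : ℝ) < T l := by exact_mod_cast TT_pos hη (hp0 l)
      have h3 : s l ≤ θ / (2 * ((L : ℝ) + 1) * (T l) * (2 * (dd l : ℝ) + 1)) := min_le_right _ _
      have hd : (0 : ℝ) < 2 * (dd l : ℝ) + 1 := by positivity
      have hL : (0 : ℝ) < (L : ℝ) + 1 := by positivity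
      rw [le_div_iff₀ (by positivity)] at h3
      rw [le_div_iff₀ hL]
      calc (T l : ℝ) * ((2 * (dd l : ℝ) + 1) * (⌈s l * N⌉₊ : ℝ)) * ((L : ℝ) + 1)
          ≤ (T l : ℝ) * ((2 * (dd l : ℝ) + 1) * (2 * (s l * N))) * ((L : ℝ) + 1) := by gcongr
        _ = (s l * (2 * ((L : ℝ) + 1) * (T l) * (2 * (dd l : ℝ) + 1))) * N := by ring
        _ ≤ θ * N := by gcongr
    refine (sum_le_card_nsmul _ _ _ key).trans ?_
    rw [card_range, nsmul_eq_mul]
    have hL : (0 : ℝ) < (L : ℝ) + 1 := by positivity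
    rw [← mul_div_assoc, div_le_iff₀ hL]
    have : 0 < θ * N := mul_pos hθ hN0
    nlinarith

end Crest.Agent.R71
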