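import Crest.Agent.R71.Defs

open Finset

namespace Crest.Agent.R71

section
variable {F : Type} [Field F] [Fintype F] [DecidableEq F]

theorem pool_single (S : Finset F) (c : F) : (univ.filter fun b => c + b ∈ S).card = S.card := by
  refine Finset.card_bij (fun b _ => c + b) ?_ ?_ ?_
  · intro b hb; simpa using hb
  · intro b _ b' _ h; exact add_left_cancel h
  · intro u hu; exact ⟨u - c, by simpa using hu, by ring⟩

theorem pool_card (S : Finset F) (a b : F) (ha : a ≠ 0) :
    (univ.filter fun j => a * j + b ∈ S).card = S.card := by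
  refine Finset.card_bij (fun j _ => a * j + b) ?_ ?_ ?_
  · intro j hj; simpa using hj
  · intro j _ j' _ h
    exact mul_left_cancel₀ ha (add_right_cancel h)
  · intro u hu
    refine ⟨(u - b) / a, ?_, ?_⟩
    · have : a * ((u - b) / a) + b = u := by field_simp; ring
      simpa [this] using hu
    · field_simp; ring

theorem pool_pair (S : Finset F) (j j' : F) (hj : j ≠ j') :
    (((univ.erase (0 : F)) ×ˢ (univ : Finset F)).filter
      fun h => h.1 * j + h.2 ∈ S ∧ h.1 * j' + h.2 ∈ S).card ≤ S.card * S.card - S.card := by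
  rw [← Finset.offDiag_card]
  refine Finset.card_le_card_of_injOn (fun h => (h.1 * j + h.2, h.1 * j' + h.2)) ?_ ?_
  · intro h hh
    simp only [coe_filter, mem_product, mem_erase, mem_univ, and_true, Set.mem_setOf_eq] at hh
    simp only [coe_offDiag, Set.mem_offDiag, mem_coe]
    refine ⟨hh.2.1, hh.2.2, fun he => hj ?_⟩
    exact mul_left_cancel₀ hh.1 (add_right_cancel he)
  · intro h _ h' _ he
    simp only [Prod.mk.injEq] at he
    have h1 : (h.1 - h'.1) * (j - j') = 0 := by linear_combination he.1 - he.2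
    have h2 : h.1 = h'.1 := sub_eq_zero.1 ((mul_eq_zero.1 h1).resolve_right (sub_ne_zero.2 hj))
    refine Prod.ext h2 ?_
    have := he.1
    rw [h2] at this
    exact add_left_cancel this

theorem pool_cheb (S A : Finset F) (hS : 0 < S.card) (hA : A.Nonempty) :
    ((((univ.erase (0 : F)) ×ˢ (univ : Finset F)).filter fun h =>
      (((A.filter fun j => h.1 * j + h.2 ∈ S).card : ℝ) <
        (S.card : ℝ) / Fintype.card F * A.card / 2)).card : ℝ) ≤
      4 * Fintype.card F / (S.card * A.card) * ((Fintype.card F - 1) * Fintype.card F) := by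
  classical
  set H := (univ.erase (0 : F)) ×ˢ (univ : Finset F) with hH
  set N : ℝ := ((Fintype.card F : ℕ) : ℝ) with hN
  set m : ℝ := ((S.card : ℕ) : ℝ) with hm
  set k : ℝ := ((A.card : ℕ) : ℝ) with hk
  have hN1 : 1 ≤ Fintype.card F := Fintype.card_pos
  have hNpos : 0 < N := by rw [hN]; exact_mod_cast hN1
  have hN1' : 1 ≤ N := by rw [hN]; exact_mod_cast hN1
  have hm1 : 1 ≤ m := by rw [hm]; exact_mod_cast hS
  have hmN : m ≤ N := by rw [hm, hN]; exact_mod_cast S.card_le_univ
  have hk1 : 1 ≤ k := by rw [hk]; exact_mod_cast hA.card_pos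
  have hE : ((univ.erase (0 : F)).card : ℝ) = N - 1 := by
    rw [card_erase_of_mem (mem_univ _), card_univ, Nat.cast_sub hN1]; simp [hN]
  have hHc : (H.card : ℝ) = (N - 1) * N := by
    rw [hH, card_product, Nat.cast_mul, hE, card_univ]
  let I : F × F → F → ℝ := fun h j => if h.1 * j + h.2 ∈ S then 1 else 0
  let X : F × F → ℝ := fun h => ∑ j ∈ A, I h j
  have hX : ∀ h, ((A.filter fun j => h.1 * j + h.2 ∈ S).card : ℝ) = X h := by
    intro h; simp only [X, I]; rw [Finset.sum_boole]
  have h1 : ∀ j, ∑ h ∈ H, I h j = (N - 1) * m := by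
    intro j
    rw [hH, Finset.sum_product]
    have : ∀ a : F, ∑ b : F, I (a, b) j = m := by
      intro a; simp only [I]; rw [Finset.sum_boole, pool_single]
    simp only [this, sum_const, nsmul_eq_mul, hE]
  have h2 : ∀ j j', j ≠ j' → ∑ h ∈ H, I h j * I h j' ≤ m * (m - 1) := by
    intro j j' hj
    have e1 : ∀ h, I h j * I h j' =
        if (h.1 * j + h.2 ∈ S ∧ h.1 * j' + h.2 ∈ S) then 1 else 0 := by
      intro h; simp only [I]; split_ifs <;> simp_all
    simp only [e1]
    rw [Finset.sum_boole]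
    have := pool_pair S j j' hj
    have h3 : ((S.card * S.card - S.card : ℕ) : ℝ) = m * (m - 1) := by
      rw [Nat.cast_sub (Nat.le_mul_self _)]; push_cast; rw [hm]; ring
    rw [← h3]; exact_mod_cast this
  have hII : ∀ h j, I h j * I h j = I h j := by
    intro h j; simp only [I]; split_ifs <;> simp
  have s1 : ∑ h ∈ H, X h = k * ((N - 1) * m) := by
    simp only [X]; rw [Finset.sum_comm]; simp only [h1, sum_const, nsmul_eq_mul, hk]
  have s2 : ∑ h ∈ H, X h ^ 2 ≤ k * ((N - 1) * m + (k - 1) * (m * (m - 1))) := by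
    simp only [X, sq, Finset.sum_mul_sum]
    rw [Finset.sum_comm]
    have : ∀ j ∈ A, ∑ h ∈ H, ∑ j' ∈ A, I h j * I h j' ≤
        (N - 1) * m + (k - 1) * (m * (m - 1)) := by
      intro j hj
      rw [Finset.sum_comm, ← Finset.add_sum_erase _ _ hj]
      refine add_le_add ?_ ?_
      · simp only [hII, h1]; exact le_rfl
      · refine (Finset.sum_le_sum fun j' hj' => h2 j j' (Finset.ne_of_mem_erase hj').symm).trans ?_
        rw [sum_const, nsmul_eq_mul, card_erase_of_mem hj, Nat.cast_sub hA.card_pos]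
        simp [hk]
    refine (Finset.sum_le_sum this).trans ?_
    rw [sum_const, nsmul_eq_mul]
  set μ : ℝ := m / N * k with hμ
  have hμpos : 0 < μ := by positivity
  have hμN : μ * N = m * k := by rw [hμ]; field_simp
  have s3 : ∑ h ∈ H, (X h - μ) ^ 2 ≤ (N - 1) * (m * k) := by
    have e : ∑ h ∈ H, (X h - μ) ^ 2 =
        ∑ h ∈ H, X h ^ 2 - 2 * μ * ∑ h ∈ H, X h + H.card * μ ^ 2 := by
      rw [Finset.mul_sum, ← nsmul_eq_mul, ← Finset.sum_const, ← Finset.sum_sub_distrib,
        ← Finset.sum_add_distrib]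
      exact Finset.sum_congr rfl fun h _ => by ring
    rw [e, s1, hHc]
    have e2 : (N - 1) * N * μ ^ 2 = (N - 1) * μ * (m * k) := by rw [← hμN]; ring
    have e3 : (k - 1) * (m - 1) ≤ (N - 1) * μ := by
      have : (k - 1) * (m - 1) * N ≤ (N - 1) * μ * N := by
        rw [mul_assoc (N - 1), hμN]
        have a1 : (m - 1) * N ≤ (N - 1) * m := by nlinarith
        have a2 : 0 ≤ (m - 1) * N := by positivity
        nlinarith [mul_nonneg (sub_nonneg.2 hk1) (sub_nonneg.2 a1)]
      exact le_of_mul_le_mul_right this hNpos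
    have e4 : 0 ≤ m * k := by positivity
    rw [e2]
    nlinarith [mul_le_mul_of_nonneg_left e3 e4]
  set B := H.filter fun h => (((A.filter fun j => h.1 * j + h.2 ∈ S).card : ℝ) < μ / 2) with hB
  have s4 : (B.card : ℝ) * (μ / 2) ^ 2 ≤ ∑ h ∈ H, (X h - μ) ^ 2 := by
    rw [← nsmul_eq_mul, ← Finset.sum_const]
    refine (Finset.sum_le_sum fun h hh => ?_).trans
      (Finset.sum_le_sum_of_subset_of_nonneg (Finset.filter_subset _ _) fun _ _ _ => sq_nonneg _)
    have := (Finset.mem_filter.1 hh).2
    rw [hX] at this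
    nlinarith
  have s5 : (B.card : ℝ) * (μ / 2) ^ 2 ≤ (N - 1) * (μ * N) := by rw [hμN]; exact s4.trans s3
  have s6 : (B.card : ℝ) * μ ≤ 4 * ((N - 1) * N) := by
    have : (B.card : ℝ) * μ * μ ≤ 4 * ((N - 1) * N) * μ := by nlinarith
    exact le_of_mul_le_mul_right this hμpos
  have e5 : 4 * N / (m * k) * ((N - 1) * N) = 4 * ((N - 1) * N) / μ := by
    rw [← hμN]; field_simp
  rw [e5, le_div_iff₀ hμpos]
  exact s6

end

theorem POOL_holds : POOL := by
  classical
  intro N m hN hm hmN
  haveI : Fact N.Prime := ⟨hN⟩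
  have hc : Fintype.card (ZMod N) = N := ZMod.card N
  let ε : ZMod N ≃ Fin N := Fintype.equivFinOfCardEq hc
  obtain ⟨S, -, hS⟩ := Finset.exists_subset_card_eq (s := (univ : Finset (ZMod N))) (n := m)
    (by rw [card_univ, hc]; exact hmN)
  set H := (univ.erase (0 : ZMod N)) ×ˢ (univ : Finset (ZMod N)) with hH
  have hHc : H.card = (N - 1) * N := by
    rw [hH, card_product, card_erase_of_mem (mem_univ _), card_univ, hc]
  let η := H.equivFin
  refine ⟨H.card, fun h => (univ.filter fun j : ZMod N =>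
    (η.symm h).1.1 * j + (η.symm h).1.2 ∈ S).map ε.toEmbedding, ?_, ?_, ?_, ?_⟩
  · rw [hHc, sq]; exact Nat.mul_le_mul_right _ (Nat.sub_le _ _)
  · rw [hHc]; have := hN.two_le; exact Nat.mul_pos (by omega) (by omega)
  · intro h
    rw [card_map, pool_card, hS]
    have := (η.symm h).2
    simp only [hH, mem_product, mem_erase] at this
    exact this.1.1
  · intro A hA
    set A' := A.map ε.symm.toEmbedding with hA'
    have hAc : A'.card = A.card := card_map _
    have key := pool_cheb S A' (by rw [hS]; exact hm) (by rw [hA']; simpa using hA)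
    rw [hS, hc, hAc] at key
    have hcast : ((H.card : ℕ) : ℝ) = ((N : ℝ) - 1) * N := by
      rw [hHc, Nat.cast_mul, Nat.cast_sub hN.one_le]; simp
    rw [hcast]
    refine le_trans (le_of_eq ?_) key
    congr 1
    have hint : ∀ h : ZMod N × ZMod N,
        (A ∩ (univ.filter fun j : ZMod N => h.1 * j + h.2 ∈ S).map ε.toEmbedding).card =
          (A'.filter fun j => h.1 * j + h.2 ∈ S).card := by
      intro h
      rw [← card_map ε.symm.toEmbedding]
      congr 1
      ext j
      simp [hA', Finset.mem_map_equiv]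
    refine Finset.card_bij (fun h _ => (η.symm h).1) ?_ ?_ ?_
    · intro h hh
      have := (Finset.mem_filter.1 hh).2
      rw [hint] at this
      exact Finset.mem_filter.2 ⟨(η.symm h).2, this⟩
    · intro h _ h' _ he
      exact η.symm.injective (Subtype.ext he)
    · intro u hu
      obtain ⟨hu1, hu2⟩ := Finset.mem_filter.1 hu
      refine ⟨η ⟨u, hu1⟩, Finset.mem_filter.2 ⟨mem_univ _, ?_⟩, by simp⟩
      rw [hint]; simpa using hu2

end Crest.Agent.R71
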