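import Crest.Agent.R71.Defs

open Finset

namespace Crest.Agent.R71

theorem ROWS_holds : ROWS := by
  classical
  intro N q S hq hS
  rcases S.eq_empty_or_nonempty with rfl | ⟨x0, hx0⟩
  · simp
  set P : Finset (Finset (Fin N)) := univ.filter fun D => D.card ≤ N / 2 with hP
  have hsub : S ⊆ P.biUnion fun D =>
      Fintype.piFinset fun j => if j ∈ D then (univ : Finset (Fin q)) else {x0 j} := by
    intro x hx
    rw [mem_biUnion]
    refine ⟨univ.filter fun j => ¬ x0 j = x j, ?_, ?_⟩
    · rw [hP, mem_filter]
      refine ⟨mem_univ _, ?_⟩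
      have h1 := hS x0 hx0 x hx
      have h2 := card_filter_add_card_filter_not (s := (univ : Finset (Fin N)))
        (fun j => x0 j = x j)
      rw [card_univ, Fintype.card_fin] at h2
      omega
    · rw [Fintype.mem_piFinset]
      intro j
      by_cases h : x0 j = x j
      · simp [h]
      · simp [h]
  refine (card_le_card hsub).trans (card_biUnion_le.trans ?_)
  have hb : ∀ D ∈ P, (Fintype.piFinset fun j =>
      if j ∈ D then (univ : Finset (Fin q)) else {x0 j}).card ≤ q ^ (N / 2) := by
    intro D hD
    rw [hP, mem_filter] at hD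
    rw [Fintype.card_piFinset]
    have : ∏ j : Fin N, (if j ∈ D then (univ : Finset (Fin q)) else {x0 j}).card
        = ∏ j : Fin N, (if j ∈ D then q else 1) := by
      refine prod_congr rfl fun j _ => ?_
      split_ifs <;> simp
    rw [this, prod_ite_mem, univ_inter, prod_const]
    exact Nat.pow_le_pow_right hq hD.2
  refine (sum_le_card_nsmul _ _ _ hb).trans ?_
  rw [smul_eq_mul]
  refine Nat.mul_le_mul_right _ ?_
  calc P.card ≤ (univ : Finset (Finset (Fin N))).card := card_le_card (filter_subset _ _)
    _ = 2 ^ N := by simp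

end Crest.Agent.R71
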