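import Crest.Agent.R71.Defs

open Finset

namespace Crest.Agent.R71

namespace SUM

theorem mass_nonneg {T : Type} [Fintype T] {μ : T → ℝ} (h : ∀ t, 0 ≤ μ t) (E : T → Prop) :
    0 ≤ mass μ E := by
  unfold mass
  refine sum_nonneg fun t _ => ?_
  split_ifs
  · exact h t
  · exact le_rfl

theorem mass_le {T : Type} [Fintype T] {μ : T → ℝ} (h : ∀ t, 0 ≤ μ t) (E : T → Prop) :
    mass μ E ≤ ∑ t, μ t := by
  unfold mass
  refine sum_le_sum fun t _ => ?_
  split_ifs
  · exact le_rfl
  · exact h t

end SUM

open SUM in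
theorem SUM_holds : SUM := by
  classical
  intro R Cn _ L E D η hL hη h
  have hL0 : (0 : ℝ) < L := by exact_mod_cast hL
  refine ⟨fun x t => (∑ l ∈ range L, if E l x t then (1 : ℝ) else 0) / L,
    (Fintype.piFinset fun l : Fin L => D l).image fun f x => (∑ l : Fin L, f l x) / L,
    ?_, ?_, ?_, ?_⟩
  · refine card_image_le.trans ?_
    rw [Fintype.card_piFinset, Fin.prod_univ_eq_prod_range (fun l => (D l).card) L]
  · intro x t ht
    have : (∑ l ∈ range L, if E l x t then (1 : ℝ) else 0) = L := by
      rw [sum_congr rfl (fun l hl => if_pos (ht l (mem_range.mp hl)))]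
      simp
    simp only [this]
    exact div_self hL0.ne'
  · intro x t ht
    have : (∑ l ∈ range L, if E l x t then (1 : ℝ) else 0) = 0 := by
      rw [sum_congr rfl (fun l hl => if_neg (ht l (mem_range.mp hl)))]
      simp
    simp only [this, zero_div]
  · intro μ h0 h1
    choose φ hφD hφ using fun l : Fin L => h l l.2 μ h0 h1
    refine ⟨fun x => (∑ l : Fin L, φ l x) / L,
      mem_image.mpr ⟨φ, Fintype.mem_piFinset.mpr hφD, rfl⟩, fun x => ?_⟩
    have e1 : ∑ t, μ t * ((∑ l ∈ range L, if E l x t then (1 : ℝ) else 0) / L)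
        = (∑ l ∈ range L, mass μ (E l x)) / L := by
      simp only [mass, ← mul_div_assoc, ← sum_div, mul_sum]
      rw [sum_comm]
      congr 1
      refine sum_congr rfl fun l _ => sum_congr rfl fun t _ => ?_
      split_ifs <;> simp
    have lo : ∑ l ∈ range L, mass μ (E l x) - L * η ≤ ∑ l : Fin L, φ l x := by
      rw [← Fin.sum_univ_eq_sum_range (fun l => mass μ (E l x)) L]
      have : ∑ l : Fin L, (mass μ (E l x) - η) ≤ ∑ l : Fin L, φ l x :=
        sum_le_sum fun l _ => (hφ l x).1
      rw [sum_sub_distrib] at this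
      simpa using this
    have hi : ∑ l : Fin L, φ l x ≤ ∑ l ∈ range L, mass μ (E l x) + 1 := by
      have a1 : ∑ l : Fin L, φ l x ≤ ∑ l ∈ range L, mass μ (E (l + 1) x) := by
        rw [← Fin.sum_univ_eq_sum_range (fun l => mass μ (E (l + 1) x)) L]
        exact sum_le_sum fun l _ => (hφ l x).2
      have a2 := sum_range_succ (fun l => mass μ (E l x)) L
      have a3 := sum_range_succ' (fun l => mass μ (E l x)) L
      have a4 := mass_nonneg h0 (E 0 x)
      have a5 := (mass_le h0 (E L x)).trans h1
      linarith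
    rw [e1, ← sub_div, abs_div, abs_of_pos hL0, div_le_iff₀ hL0]
    have e2 : (η + 1 / L) * L = L * η + 1 := by field_simp
    rw [e2, abs_le]
    have : 0 ≤ L * η := by positivity
    constructor <;> linarith

end Crest.Agent.R71
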